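import Vale.Agent.P054.T2.H580.UniHat

set_option autoImplicit false
set_option linter.unusedSectionVars false

/-!
# P054 / T3: families over an abstract base scale `W`

`Base`: a family of points with the systems at the base scale `W` (degrees `d j ≤ W`) and the
reference rank `R` of the base scale.  `base_good`: [GOOD] at the levels `W * b ^ i`, if the gradient
ranks of the family are constant there.
-/

open MvPolynomial Module Finset

namespace Vale.Agent.P054.T3.H182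

open Vale.Agent.P054.T2
open Vale.Agent.P054.T2.H580 (rkF hilbF IsFilt isFilt_total isFilt_Vw Vw wh Vw_one_eq Vw_mono
  pderiv_mem_Vw X_mem_Vw X_mem_Vw_le up_Vw Par core_dense core_nonempty fam_lower fib_eq)
open Vale.Agent.P054.T2.H307 (van pts mem_van mem_pts van_mono IsUnif IsFam gfr core core_subset
  core_anti core_zero fib mem_fib fib_mono fib_subset self_mem_fib gr gsp lo_core)
open Vale.Agent.P054.T2.H930 (germ)

variable {ι κ K S : Type*} [Field K]

/-- **A family at the base scale `W`.**  `f s` the system on the fibre of `s`, of degrees `d j`,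
`R` the reference rank: `∏ d * W ^ (N - c) ≤ Λ * R` (upper bound for the germs), `R ≤ Λ * rank` for
the dense sets (lower bound). -/
structure Base {σ : Type*} [Fintype σ] (x : ι → σ → K) (p : ι → S) (E' : Finset ι)
    (W Λ q c : ℕ) where
  /-- the systems -/
  f : S → Fin c → MvPolynomial σ K
  /-- the degrees -/
  d : ℕ → ℕ
  /-- the reference rank -/
  R : ℕ
  d_pos : ∀ j < c, 1 ≤ d j
  d_le : ∀ j < c, d j ≤ W
  deg : ∀ s, ∀ j : Fin c, (f s j).totalDegree ≤ d j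
  zero : ∀ e ∈ E', ∀ j, eval (x e) (f (p e) j) = 0
  ind : ∀ e ∈ E', LinearIndependent K (fun j => H930.grad (x e) (f (p e) j))
  c_le : c ≤ Fintype.card σ
  R_pos : 1 ≤ R
  up : (∏ j ∈ range c, d j) * W ^ (Fintype.card σ - c) ≤ Λ * R
  low : ∀ B ⊆ E', E'.card < q * B.card → ∃ e ∈ B,
    R ≤ Λ * rkF (restrictTotalDegree σ K) (pts x (fib p B (p e))) W

section base

variable {σ : Type*} [Fintype σ] [DecidableEq σ] {x : ι → σ → K} {p : ι → S} {E' : Finset ι}
  {W Λ q c : ℕ}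

/-- the system of a fibre as elements of `van` -/
theorem Base.mem_van (D : Base x p E' W Λ q c) (s : S) (j : Fin c) :
    D.f s j ∈ van x (fib p E' s) (restrictTotalDegree σ K (D.d j)) := by
  refine H307.mem_van.2 ⟨(mem_restrictTotalDegree _ _ _).2 (D.deg s j), fun e he => ?_⟩
  obtain ⟨h1, h2⟩ := mem_fib.1 he
  have h3 := D.zero e h1 j
  rwa [h2] at h3

theorem Base.one_le_W (D : Base x p E' W Λ q c) (hc : 0 < c) : 1 ≤ W :=
  (D.d_pos 0 hc).trans (D.d_le 0 hc)

/-- **upper bound** at the scale `2 * (W * b ^ k₁)` -/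
theorem Base.hilb_le (D : Base x p E' W Λ q c) (hW : 1 ≤ W) {b : ℕ} (hb : 1 ≤ b) (k₁ : ℕ) (s : S)
    {A : Finset ι} (hA : A ⊆ fib p E' s) :
    hilbF (restrictTotalDegree σ K) (⨅ e ∈ A, germ (x e) (D.f s)) (2 * (W * b ^ k₁)) ≤
      (2 * (Fintype.card σ + 2)) ^ Fintype.card σ * (Λ * (D.R * (b ^ k₁) ^ (Fintype.card σ - c))) := by
  classical
  set N := Fintype.card σ with hN
  have hVw : Vw K (fun _ : σ => 1) = restrictTotalDegree σ K := funext Vw_one_eq
  have hb1 : 1 ≤ b ^ k₁ := Nat.one_le_pow _ _ hb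
  have hWb : 1 ≤ W * b ^ k₁ := Nat.mul_pos hW hb1
  have hmem : ∀ e ∈ A, e ∈ E' ∧ p e = s := fun e he => mem_fib.1 (hA he)
  have h := up_Vw (K := K) (fun _ : σ => 1) (fun _ => one_ne_zero) x A (D.f s)
    D.d (fun j hj => D.d_pos j hj)
    (fun j => by rw [hVw, mem_restrictTotalDegree]; exact D.deg s j)
    (fun e he j => by
      obtain ⟨h1, h2⟩ := hmem e he
      have h3 := D.zero e h1 j
      rwa [h2] at h3)
    (fun e he => by
      obtain ⟨h1, h2⟩ := hmem e he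
      have h3 := D.ind e h1
      rwa [h2] at h3) D.c_le (2 * (W * b ^ k₁))
    (fun _ => by show 1 ≤ 2 * (W * b ^ k₁); omega) (by omega)
  rw [hVw, Finset.prod_const_one, one_mul] at h
  refine h.trans ?_
  have e1 : (2 * (W * b ^ k₁)) ^ (N - c) ≤ 2 ^ N * (W ^ (N - c) * (b ^ k₁) ^ (N - c)) := by
    rw [mul_pow, mul_pow]
    exact Nat.mul_le_mul_right _ (Nat.pow_le_pow_right (by norm_num) (Nat.sub_le _ _))
  calc (c + 2) ^ N * ((∏ j ∈ range c, D.d j) * (2 * (W * b ^ k₁)) ^ (N - c))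
      ≤ (N + 2) ^ N * ((∏ j ∈ range c, D.d j) *
          (2 ^ N * (W ^ (N - c) * (b ^ k₁) ^ (N - c)))) :=
        Nat.mul_le_mul (Nat.pow_le_pow_left (by have := D.c_le; omega) _)
          (Nat.mul_le_mul_left _ e1)
    _ = (2 * (N + 2)) ^ N * (((∏ j ∈ range c, D.d j) * W ^ (N - c)) * (b ^ k₁) ^ (N - c)) := by
        rw [mul_pow]; ring
    _ ≤ (2 * (N + 2)) ^ N * ((Λ * D.R) * (b ^ k₁) ^ (N - c)) :=
        Nat.mul_le_mul_left _ (Nat.mul_le_mul_right _ D.up)
    _ = _ := by ring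

end base

section unif

variable [CharZero K] [Infinite K]
variable {c : κ → Finset ι → ι → ℕ} {J : Finset κ} {β : ℕ} {E' : Finset ι} {v : κ → ℕ}
variable {σ : Type*} [Fintype σ] [DecidableEq σ] {x : ι → σ → K} {p : ι → S}

theorem der_total (n : ℕ) (i : σ) (F : MvPolynomial σ K) (hF : F ∈ restrictTotalDegree σ K n) :
    pderiv i F ∈ restrictTotalDegree σ K n := by
  rw [← Vw_one_eq] at hF ⊢
  exact Vw_mono _ (Nat.sub_le _ _) (pderiv_mem_Vw _ hF i)

theorem X_mem_total {W : ℕ} (hW : 1 ≤ W) (i : σ) :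
    (X i : MvPolynomial σ K) ∈ restrictTotalDegree σ K W := by
  rw [mem_restrictTotalDegree, totalDegree_X]
  exact hW

/-- the loss of (LO) between the levels `W` and `W * b ^ i`, when the values are constant -/
theorem lo_const {N k C₁ L K₀ q : ℕ} (hP : Par N k β C₁ L K₀ q J.card)
    (hN : Fintype.card σ ≤ N) {V : ℕ → Submodule K (MvPolynomial σ K)} (hV : IsFilt V)
    (hder : ∀ n i F, F ∈ V n → pderiv i F ∈ V n) {W : ℕ} (hX : ∀ i, X i ∈ V W)
    {idx : ℕ → κ} {K' : ℕ} (hK' : K' ≤ K₀) (hF : IsFam c J idx K' x p V W (β ^ L))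
    (hconst : ∀ i ≤ K', v (idx i) = v (idx 0))
    {A : Finset ι} {e : ι} (he : e ∈ core c J v A (K₀ * (L * k))) :
    ((β ^ L) ^ K') ^ (Fintype.card σ - v (idx 0)) *
        rkF V (pts x (fib p (core c J v A (K₀ * (L * k))) (p e))) W ≤
      ((C₁ ^ (Fintype.card σ) * (Fintype.card σ).factorial) ^ L) ^ K' *
        rkF V (pts x (fib p A (p e))) (W * (β ^ L) ^ K') := by
  have h1 := lo_core hV hder hX k β C₁ L K₀ hP.hk (hP.hβ_le hN) hP.hC hP.hC1 hK' hF A he
  rw [hconst K' le_rfl, Nat.sub_self, Nat.mul_zero, pow_zero, mul_one] at h1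
  have h2 : ∑ j ∈ range K', (Fintype.card σ - v (idx j)) =
      K' * (Fintype.card σ - v (idx 0)) := by
    rw [Finset.sum_congr rfl (fun j hj => by
      rw [hconst j (Finset.mem_range.1 hj).le]), Finset.sum_const, Finset.card_range, smul_eq_mul]
  rw [h2, pow_mul] at h1
  exact h1

/-- **lower bound at the level `W * b ^ K'`** for dense sets -/
theorem Base.lower {N k C₁ L K₀ q q' Λ W c₀ : ℕ} (hP : Par N k β C₁ L K₀ q J.card)
    (h : IsUnif c J β E' v)
    (hmono : ∀ j ∈ J, ∀ A B : Finset ι, A ⊆ B → B ⊆ E' → ∀ e ∈ A, c j B e ≤ c j A e)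
    (hN : Fintype.card σ ≤ N) (D : Base x p E' W Λ q' c₀) (hW : 1 ≤ W)
    {idx : ℕ → κ} {K' : ℕ} (hK' : K' ≤ K₀)
    (hF : IsFam c J idx K' x p (restrictTotalDegree σ K) W (β ^ L))
    (hconst : ∀ i ≤ K', v (idx i) = c₀)
    {B : Finset ι} (hB : B ⊆ E') {r : ℕ} (hr : 2 * r ≤ q) (hr' : 2 * r ≤ q')
    (hd : E'.card < r * B.card) :
    ∃ e ∈ B, D.R * ((β ^ L) ^ K') ^ (Fintype.card σ - c₀) ≤
      (Λ * ((C₁ ^ (Fintype.card σ) * (Fintype.card σ).factorial) ^ L) ^ K') *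
        rkF (restrictTotalDegree σ K) (pts x (fib p B (p e))) (W * (β ^ L) ^ K') := by
  classical
  have hd1 := core_dense hP h hmono hB hr hd
  have hA1 : core c J v B (K₀ * (L * k)) ⊆ E' := (core_subset _ _).trans hB
  obtain ⟨e, he, h1⟩ := D.low _ hA1 (hd1.trans_le (Nat.mul_le_mul_right _ hr'))
  refine ⟨e, core_subset _ _ he, ?_⟩
  have h2 := lo_const (v := v) hP hN (isFilt_total (k := K) (σ := σ)) (der_total (K := K))
    (X_mem_total (K := K) hW) hK' hF
    (fun i hi => by rw [hconst i hi, hconst 0 (Nat.zero_le _)]) he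
  rw [hconst 0 (Nat.zero_le _)] at h2
  calc D.R * ((β ^ L) ^ K') ^ (Fintype.card σ - c₀)
      ≤ (Λ * rkF (restrictTotalDegree σ K)
          (pts x (fib p (core c J v B (K₀ * (L * k))) (p e))) W) *
          ((β ^ L) ^ K') ^ (Fintype.card σ - c₀) := Nat.mul_le_mul_right _ h1
    _ = Λ * (((β ^ L) ^ K') ^ (Fintype.card σ - c₀) * rkF (restrictTotalDegree σ K)
          (pts x (fib p (core c J v B (K₀ * (L * k))) (p e))) W) := by ring
    _ ≤ Λ * (((C₁ ^ (Fintype.card σ) * (Fintype.card σ).factorial) ^ L) ^ K' *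
        rkF (restrictTotalDegree σ K) (pts x (fib p B (p e))) (W * (β ^ L) ^ K')) :=
        Nat.mul_le_mul_left _ h2
    _ = _ := by ring

/-- **[GOOD] over the base scale**: dense subset `A` (`|E'| ≤ r |A|`), level `W * b ^ m`. -/
theorem Base.good {N k C₁ L K₀ q q' W c₀ : ℕ} (hP : Par N k β C₁ L K₀ q J.card)
    (h : IsUnif c J β E' v) (hE : E'.Nonempty)
    (hmono : ∀ j ∈ J, ∀ A B : Finset ι, A ⊆ B → B ⊆ E' → ∀ e ∈ A, c j B e ≤ c j A e)
    (hN : Fintype.card σ ≤ N) (D : Base x p E' W (β ^ L) q' c₀) (hW : 1 ≤ W)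
    {idx : ℕ → κ} {K' : ℕ} (hK' : K' ≤ K₀)
    (hF : IsFam c J idx K' x p (restrictTotalDegree σ K) W (β ^ L))
    (hconst : ∀ i ≤ K', v (idx i) = c₀)
    {A : Finset ι} (hA : A ⊆ E') {r β' : ℕ} (hr : E'.card ≤ r * A.card)
    (hrq : 2 * (r * β') ≤ q) (hrq' : 2 * (r * β') ≤ q')
    (m : ℕ) (hm : m + 4 ≤ K')
    (Y : Finset ι) (hYA : Y ⊆ A)
    (hY : ∀ e ∈ Y, ∃ F : MvPolynomial σ K, F.totalDegree ≤ W * (β ^ L) ^ m ∧
      (∀ a ∈ A, p a = p e → eval (x a) F = 0) ∧ F ∉ germ (x e) (D.f (p e))) :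
    β' * Y.card ≤ A.card := by
  classical
  have hb1 : 1 < β ^ L := hP.b_gt_one
  have hTT : W * (β ^ L) ^ K' + (β ^ L) ^ (K' - m) * (W * (β ^ L) ^ m) = 2 * (W * (β ^ L) ^ K') := by
    have : (β ^ L) ^ (K' - m) * (W * (β ^ L) ^ m) = W * (β ^ L) ^ K' := by
      rw [mul_left_comm, ← pow_add, Nat.sub_add_cancel (by omega)]
    rw [this]; ring
  have hRE : 1 ≤ D.R * ((β ^ L) ^ K') ^ (Fintype.card σ - c₀) :=
    Nat.mul_pos D.R_pos (Nat.one_le_pow _ _ (Nat.one_le_pow _ _ hb1.le))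
  refine (isFilt_total (k := K) (σ := σ)).good_num p x A D.f
    (fun e he => D.zero e (hA he)) (fun e he => D.ind e (hA he))
    (T := W * (β ^ L) ^ m) (T' := W * (β ^ L) ^ K') (J := (β ^ L) ^ (K' - m))
    (C₁ := (2 * (Fintype.card σ + 2)) ^ Fintype.card σ * (β ^ L))
    (Λ := (β ^ L) * ((C₁ ^ (Fintype.card σ) * (Fintype.card σ).factorial) ^ L) ^ K')
    (E := D.R * ((β ^ L) ^ K') ^ (Fintype.card σ - c₀)) hRE ?_ ?_ ?_ Y hYA ?_
  · intro s Z hZ
    rw [hTT]
    refine (D.hilb_le hW hb1.le K' s ?_).trans (le_of_eq (by ring))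
    intro e he
    obtain ⟨h1, h2⟩ := Finset.mem_filter.1 (hZ he)
    exact mem_fib.2 ⟨hA h1, h2⟩
  · intro B hB hcard
    have hBd : E'.card < (r * β') * B.card := by
      rcases Nat.eq_zero_or_pos r with h0 | h0
      · exfalso
        rw [h0, zero_mul] at hr
        have := hE.card_pos
        omega
      · calc E'.card ≤ r * A.card := hr
          _ < r * (β' * B.card) := Nat.mul_lt_mul_of_pos_left hcard h0
          _ = (r * β') * B.card := by ring
    obtain ⟨e, he, h1⟩ := D.lower hP h hmono hN hW hK' hF hconst (hB.trans hA) hrq hrq' hBd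
    refine ⟨e, he, ?_⟩
    rw [fib_eq p B (p e), H580.pts_eq] at h1
    exact h1
  · have h1 := hP.loss (M₁ := Fintype.card σ) (M₂ := Fintype.card σ) (M₃ := 0) (K₁ := K')
      (K₂ := 0) hN hN (Nat.zero_le N) hK' (Nat.zero_le K₀)
    simp only [pow_zero, mul_one] at h1
    calc (2 * (Fintype.card σ + 2)) ^ Fintype.card σ * (β ^ L) *
          ((β ^ L) * ((C₁ ^ (Fintype.card σ) * (Fintype.card σ).factorial) ^ L) ^ K')
        = ((2 * (Fintype.card σ + 2)) ^ Fintype.card σ *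
          ((C₁ ^ (Fintype.card σ) * (Fintype.card σ).factorial) ^ L) ^ K') * ((β ^ L) * (β ^ L)) := by ring
      _ ≤ (β ^ L) * ((β ^ L) * (β ^ L)) := Nat.mul_le_mul_right _ h1
      _ = (β ^ L) ^ 3 := by ring
      _ < (β ^ L) ^ (K' - m) := Nat.pow_lt_pow_right hb1 (by omega)
  · intro e he
    obtain ⟨F, h1, h2, h3⟩ := hY e he
    exact ⟨F, (mem_restrictTotalDegree _ _ _).2 h1, h2, h3⟩

end unif

end Vale.Agent.P054.T3.H182
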