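import Vale.Agent.P054.T2.H307.Fam
import Vale.Agent.P054.T2.H686.Setup
import Vale.Agent.P054.T3.H182.Base

set_option autoImplicit false
set_option linter.all false

/-!
# P054 / T3: `BData` = uniform set of edges over an abstract base scale `W` (input of section B)

Families `F`, `L1`, `L2` (total degree) and the hats `H1`, `H2` (weights `1` on `g`, `W` on the
point), levels `W * b ^ i`, `b = β ^ L`, `i ≤ K₀` (a constant number of levels).  Everything below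
the base scale enters through `Base` (systems of degrees `d j ≤ W`, reference rank `R`).
-/

namespace Vale.Agent.P054.T3.H182

open Finset MvPolynomial Module
open Vale.Agent.P054.T2
open Vale.Agent.P054.T2.H307 (IsUnif IsFam gfr gfr_mono_set gfr_le fib mem_fib pts van Ed ZK xF xL
  xH1 xH2 wB NN)
open Vale.Agent.P054.T2.H580 (Par Vw wh rkF isFilt_total isFilt_Vw wh_ne_zero fam_le_card)
open Vale.Agent.P054.T2.H686 (Qf Crd)
open Vale.Agent.P054.T2.H930 (Pt)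

/-- names of the families over the base scale -/
inductive F5
  | F | L1 | L2 | H1 | H2
  deriving DecidableEq

instance : Fintype F5 := ⟨{F5.F, F5.L1, F5.L2, F5.H1, F5.H2}, fun x => by cases x <;> decide⟩

section

variable {K : Type*} [Field K] {n : ℕ}

/-- the five families, base scale `W`, step `b`, level `j.2` -/
noncomputable def cW (n : ℕ) (K : Type*) [Field K] (W b : ℕ) (j : F5 × ℕ)
    (A : Finset (Ed n K)) (e : Ed n K) : ℕ :=
  match j.1 with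
  | F5.F => gfr xF (fun _ => ()) (restrictTotalDegree (Crd n) K) (W * b ^ j.2) A e
  | F5.L1 => gfr xL Prod.fst (restrictTotalDegree (Fin n) K) (W * b ^ j.2) A e
  | F5.L2 => gfr xL Prod.snd (restrictTotalDegree (Fin n) K) (W * b ^ j.2) A e
  | F5.H1 => gfr xH1 (fun _ => ()) (Vw K (wh (Crd n) (Pt n) W)) (W * b ^ j.2) A e
  | F5.H2 => gfr xH2 (fun _ => ()) (Vw K (wh (Crd n) (Pt n) W)) (W * b ^ j.2) A e

/-- the index set: all families, levels `i ≤ K₀` -/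
def JW (K₀ : ℕ) : Finset (F5 × ℕ) := Finset.univ ×ˢ range (K₀ + 1)

theorem mem_JW {K₀ : ℕ} {f : F5} {i : ℕ} : (f, i) ∈ JW K₀ ↔ i ≤ K₀ := by
  unfold JW
  rw [Finset.mem_product, Finset.mem_range, Nat.lt_succ_iff]
  exact ⟨fun h => h.2, fun h => ⟨Finset.mem_univ _, h⟩⟩

theorem card_F5 : Fintype.card F5 = 5 := rfl

theorem card_JW (K₀ : ℕ) : (JW K₀).card = 5 * (K₀ + 1) := by
  unfold JW
  rw [Finset.card_product, Finset.card_range, Finset.card_univ, card_F5]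

theorem cW_mono (W b : ℕ) (j : F5 × ℕ) {A B : Finset (Ed n K)} (h : A ⊆ B) (e : Ed n K) :
    cW n K W b j B e ≤ cW n K W b j A e := by
  obtain ⟨f, i⟩ := j
  cases f
  all_goals exact gfr_mono_set _ _ _ _ h e

theorem cW_le (W b : ℕ) (j : F5 × ℕ) (A : Finset (Ed n K)) (e : Ed n K) :
    cW n K W b j A e ≤ NN n := by
  have hC : Fintype.card (Crd n) = 2 * n + 1 := by simp [Crd]; ring
  have hP : Fintype.card (Pt n) = 2 * n + 2 := by simp [Pt]; ring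
  obtain ⟨f, i⟩ := j
  unfold NN
  cases f
  all_goals
    refine (gfr_le _ _ _ _ _ _).trans ?_
    simp only [Fintype.card_sum, hC, hP, Fintype.card_fin]
    omega

theorem fam_F (W b K₀ : ℕ) : IsFam (cW n K W b) (JW K₀) (fun i => (F5.F, i)) K₀ xF (fun _ => ())
    (restrictTotalDegree (Crd n) K) W b := fun _ hj => ⟨mem_JW.2 hj, fun _ _ => rfl⟩

theorem fam_L1 (W b K₀ : ℕ) : IsFam (cW n K W b) (JW K₀) (fun i => (F5.L1, i)) K₀ xL Prod.fst
    (restrictTotalDegree (Fin n) K) W b := fun _ hj => ⟨mem_JW.2 hj, fun _ _ => rfl⟩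

theorem fam_L2 (W b K₀ : ℕ) : IsFam (cW n K W b) (JW K₀) (fun i => (F5.L2, i)) K₀ xL Prod.snd
    (restrictTotalDegree (Fin n) K) W b := fun _ hj => ⟨mem_JW.2 hj, fun _ _ => rfl⟩

theorem fam_H1 (W b K₀ : ℕ) : IsFam (cW n K W b) (JW K₀) (fun i => (F5.H1, i)) K₀ xH1
    (fun _ => ()) (Vw K (wh (Crd n) (Pt n) W)) W b := fun _ hj => ⟨mem_JW.2 hj, fun _ _ => rfl⟩

theorem fam_H2 (W b K₀ : ℕ) : IsFam (cW n K W b) (JW K₀) (fun i => (F5.H2, i)) K₀ xH2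
    (fun _ => ()) (Vw K (wh (Crd n) (Pt n) W)) W b := fun _ hj => ⟨mem_JW.2 hj, fun _ _ => rfl⟩

end

variable {n : ℕ}

/-- **the uniform set of edges over the base scale `W`.** -/
structure BData (n W k β C₁ L K₀ q C i₀ i₁ : ℕ) (E' : Finset (Ed n ℝ)) (v : F5 × ℕ → ℕ) where
  par : Par (NN n) k β C₁ L K₀ q (JW K₀).card
  unif : IsUnif (cW n ℝ W (β ^ L)) (JW K₀) β E' v
  ne : E'.Nonempty
  adj : ∀ e ∈ E', e.1.1 0 ≠ e.2.1 0 ∧ Qf (e.1 - e.2) = 0
  hW : 1 ≤ W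
  /-- the base data of the three families -/
  bF : Base (K := ℝ) xF (fun _ => ()) E' W (β ^ L) q (v (F5.F, 0))
  b1 : Base (K := ℝ) xL Prod.fst E' W (β ^ L) q (v (F5.L1, 0))
  b2 : Base (K := ℝ) xL Prod.snd E' W (β ^ L) q (v (F5.L2, 0))
  /-- the tight window -/
  winF : ∀ i ≤ K₀, v (F5.F, i) = v (F5.F, 0)
  winL1 : ∀ i ≤ K₀, v (F5.L1, i) = v (F5.L1, 0)
  winL2 : ∀ i ≤ K₀, v (F5.L2, i) = v (F5.L2, 0)
  tight : (2 * n + 1) - v (F5.F, 0) = (n - v (F5.L1, 0)) + (n - v (F5.L2, 0))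
  /-- the leaf dimensions are positive -/
  pos1 : v (F5.L1, 0) < n
  pos2 : v (F5.L2, 0) < n
  /-- the window of the hats -/
  winH1 : ∀ i, i₀ ≤ i → i ≤ i₁ → v (F5.H1, i) = v (F5.H1, i₀)
  winH2 : ∀ i, i₀ ≤ i → i ≤ i₁ → v (F5.H2, i) = v (F5.H2, i₀)
  /-- geometric lengths -/
  geo : C * i₀ + C ≤ i₁
  long : C * i₁ + C ≤ K₀

namespace BData

variable {W k β C₁ L K₀ q C i₀ i₁ : ℕ} {E' : Finset (Ed n ℝ)} {v : F5 × ℕ → ℕ}
  (h : BData n W k β C₁ L K₀ q C i₀ i₁ E' v)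

include h

theorem hb : 1 < β ^ L := h.par.b_gt_one

theorem hβ1 : 1 < β := h.par.beta_gt_one

theorem i₀_le (hC : 1 ≤ C) : i₀ ≤ i₁ := by
  have h1 := h.geo
  nlinarith

theorem i₁_le (hC : 1 ≤ C) : i₁ ≤ K₀ := by
  have h1 := h.long
  nlinarith

theorem mono : ∀ j ∈ JW K₀, ∀ A B : Finset (Ed n ℝ), A ⊆ B → B ⊆ E' → ∀ e ∈ A,
    cW n ℝ W (β ^ L) j B e ≤ cW n ℝ W (β ^ L) j A e :=
  fun j _ A B hAB _ e _ => cW_mono _ _ j hAB e

theorem vF_le : v (F5.F, 0) ≤ 2 * n + 1 := by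
  have h1 := h.bF.c_le
  have hC : Fintype.card (Crd n) = 2 * n + 1 := by simp [Crd]; ring
  rwa [hC] at h1

theorem vL1_le : v (F5.L1, 0) ≤ n := h.pos1.le

theorem vL2_le : v (F5.L2, 0) ≤ n := h.pos2.le

theorem monoH1 {i j : ℕ} (hij : i ≤ j) (hj : j ≤ K₀) : v (F5.H1, i) ≤ v (F5.H1, j) :=
  h.unif.fam_mono h.ne h.hβ1 (isFilt_Vw (k := ℝ) _ (wh_ne_zero h.hW)).mono h.hb.le
    (fam_H1 (K := ℝ) W (β ^ L) K₀) hij hj

theorem monoH2 {i j : ℕ} (hij : i ≤ j) (hj : j ≤ K₀) : v (F5.H2, i) ≤ v (F5.H2, j) :=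
  h.unif.fam_mono h.ne h.hβ1 (isFilt_Vw (k := ℝ) _ (wh_ne_zero h.hW)).mono h.hb.le
    (fam_H2 (K := ℝ) W (β ^ L) K₀) hij hj

end BData

end Vale.Agent.P054.T3.H182
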