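import Vale.Agent.P054.T3.H182.SecBCore
import Vale.Agent.P054.T2.H622.VertS
import Vale.Agent.P054.T3.H637.VertW

set_option autoImplicit false
set_option linter.all false

/-!
# P054 / T3, section B: `EdgeB` (`n ≥ 3`) and `EdgeW` (`n ≥ 2`) at every good edge of a `BOut`
-/

namespace Vale.Agent.P054.T3.H182

open MvPolynomial Finset Module
open Vale.Agent.P054.T2
open Vale.Agent.P054.T2.SecC
open Vale.Agent.P054.T2.H686 (E Ez Gm)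

variable {n W D c₀ σ₁ σ₂ β : ℕ} {E' : Finset (ZZ n × ZZ n)} {P : Finset (E n)}
  {B : E n ≃ₗᵢ[ℝ] E n} {dF d1 d2 : ℕ → ℕ}

/-- `EdgeB` at every good edge, `n ≥ 3` -/
theorem BOut.edgeB3 (O : BOut n W D c₀ σ₁ σ₂ E' P B dF d1 d2) (hn : 3 ≤ n) (hB : Gm P B)
    (hE : E' ⊆ Ez P B β) : ∀ e ∈ O.A, EdgeB O.S₁ O.S₂ e :=
  O.edgeB (H622.vertS hn) hB hE

/-- `EdgeW` at every good edge, `n ≥ 2` -/
theorem BOut.edgeW (O : BOut n W D c₀ σ₁ σ₂ E' P B dF d1 d2) (hn : 2 ≤ n) (hB : Gm P B)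
    (hE : E' ⊆ Ez P B β) : ∀ e ∈ O.A, H637.EdgeW O.S₁ O.S₂ e := by
  intro e he
  exact
    { side₁ := O.side₁ e he
      side₂ := O.side₂ e he
      hperp := O.hperp e he
      hw₁ := O.hw₁ e he
      hw₂ := O.hw₂ e he
      ste := O.ste e he
      vert := H637.vertSW hn E' O.E1 O.A W D O.N c₀ O.c₁ O.c₂ σ₁ σ₂ O.v₁ O.v₂ O.Z O.S₁ O.S₂
        P B β hB e he (hE (O.sub he)) O.hc₀ O.hc₁ O.hc₂ (O.hKc1 e he) (O.hKc2 e he)
        (O.hst₁ e he) (O.hst₂ e he) (O.hw₁ e he) (O.hw₂ e he) }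

end Vale.Agent.P054.T3.H182
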