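import Vale.Agent.P054.T3.H182.Base

set_option autoImplicit false
set_option linter.unusedSectionVars false

/-!
# P054 / T3: the hats over an abstract base scale `W`: systems, lower bound, [GOOD]
-/

open MvPolynomial Module Finset

namespace Vale.Agent.P054.T3.H182

open Vale.Agent.P054.T2
open Vale.Agent.P054.T2.H580 (rkF hilbF IsFilt isFilt_total isFilt_Vw Vw wh Vw_one_eq Vw_mono
  pderiv_mem_Vw X_mem_Vw X_mem_Vw_le up_Vw Par core_dense core_nonempty fam_lower fib_eq kap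
  hat_up_aux sum_kap_window kap_eq_zero rkF_proj_le finite_Vw rename_mem_Vw_of_total
  fam_le_card wh_ne_zero wh_le linInd_rename le_value exists_sys_ext kap_le_of_lt)
open Vale.Agent.P054.T2.H307 (van pts mem_van mem_pts van_mono IsUnif IsFam gfr core core_subset
  core_anti core_zero fib mem_fib fib_mono fib_subset self_mem_fib gr gsp lo_core)
open Vale.Agent.P054.T2.H930 (germ)

variable {ι κ K S : Type*} [Field K]
variable {γ ρ : Type*} [Fintype γ] [Fintype ρ] [DecidableEq γ] [DecidableEq ρ]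

/-! ### numbers -/

/-- **upper bound for the germs of a hat** at the scale `2 * (W * b ^ i₁)` -/
theorem hat_up (W b : ℕ) (hW : 1 ≤ W) (hb : 1 ≤ b) (i₀ i₁ : ℕ) (hi : i₀ ≤ i₁) (d v' : ℕ → ℕ)
    (hv' : ∀ k l : ℕ, k ≤ l → l ≤ i₀ → v' k ≤ v' l)
    (hconst : ∀ i, i₀ ≤ i → i < i₁ → v' i = v' i₀)
    {c m : ℕ} (hd1 : ∀ j < c, 1 ≤ d j) (hm : v' i₀ = c + m) (hge : ∀ i ≤ i₀, c ≤ v' i)
    (hcγ : c ≤ Fintype.card γ) (hmN : c + m ≤ Fintype.card γ + Fintype.card ρ)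
    (x : ι → γ ⊕ ρ → K) (A : Finset ι)
    (f : Fin (c + m) → MvPolynomial (γ ⊕ ρ) K)
    (hd : ∀ j : Fin c, f (Fin.castAdd m j) ∈ Vw K (wh γ ρ W) (d j))
    (hd' : ∀ j : Fin m, f (Fin.natAdd c j) ∈
      Vw K (wh γ ρ W) (W * b ^ kap (i₀ + 1) v' (c + j)))
    (hev : ∀ e ∈ A, ∀ j, eval (x e) (f j) = 0)
    (hind : ∀ e ∈ A, LinearIndependent K (fun j => H930.grad (x e) (f j))) :
    hilbF (Vw K (wh γ ρ W)) (⨅ e ∈ A, germ (x e) f) (2 * (W * b ^ i₁)) ≤
      (2 * (Fintype.card γ + Fintype.card ρ + 2)) ^ (Fintype.card γ + Fintype.card ρ) *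
        (((∏ j ∈ range c, d j) * W ^ (Fintype.card γ - c)) *
          b ^ (∑ i ∈ range i₁, (Fintype.card γ + Fintype.card ρ - v' i))) := by
  classical
  set N := Fintype.card γ + Fintype.card ρ with hN
  have h := hat_up_aux (K := K) W hW x A f d (fun j => b ^ kap (i₀ + 1) v' (c + j))
    hd1 (fun j _ => Nat.one_le_pow _ _ hb) hd hd' hev hind hcγ hmN (2 * b ^ i₁) (by
      have := Nat.one_le_pow i₁ b hb
      omega)
  have harg : W * (2 * b ^ i₁) = 2 * (W * b ^ i₁) := by ring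
  rw [harg] at h
  refine h.trans ?_
  rw [← hN]
  have s2 : (∑ j ∈ range m, kap (i₀ + 1) v' (c + j)) + i₁ * (N - (c + m)) =
      ∑ i ∈ range i₁, (N - v' i) := by
    have h3 := sum_kap_window N (i₀ + 1) i₁ v' (by omega)
      (fun k l hkl hl => hv' k l hkl (by omega)) (by simpa [hm] using hmN)
      (fun k h1 h2 => by simpa using hconst k (by simpa using h1) h2)
    simp only [Nat.add_sub_cancel, hm] at h3
    rw [Finset.sum_range_add] at h3
    have h4 : ∑ j ∈ range c, kap (i₀ + 1) v' j = 0 := by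
      refine Finset.sum_eq_zero fun j hj => ?_
      refine kap_eq_zero _ _ _ fun k hk => ?_
      have h5 := hge k (by omega)
      have h6 := Finset.mem_range.1 hj
      omega
    rw [h4, zero_add] at h3
    exact h3
  have hpow : (2 * b ^ i₁) ^ (N - (c + m)) ≤ 2 ^ N * b ^ (i₁ * (N - (c + m))) := by
    rw [mul_pow, ← pow_mul]
    exact Nat.mul_le_mul_right _ (Nat.pow_le_pow_right (by norm_num) (Nat.sub_le _ _))
  rw [Finset.prod_pow_eq_pow_sum]
  calc (c + m + 2) ^ N * ((∏ j ∈ range c, d j) * W ^ (Fintype.card γ - c) *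
        (b ^ (∑ j ∈ range m, kap (i₀ + 1) v' (c + j)) * (2 * b ^ i₁) ^ (N - (c + m))))
      ≤ (N + 2) ^ N * ((∏ j ∈ range c, d j) * W ^ (Fintype.card γ - c) *
        (b ^ (∑ j ∈ range m, kap (i₀ + 1) v' (c + j)) *
          (2 ^ N * b ^ (i₁ * (N - (c + m)))))) :=
        Nat.mul_le_mul (Nat.pow_le_pow_left (by omega) _)
          (Nat.mul_le_mul_left _ (Nat.mul_le_mul_left _ hpow))
    _ = (2 * (N + 2)) ^ N * (((∏ j ∈ range c, d j) * W ^ (Fintype.card γ - c)) *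
        b ^ ((∑ j ∈ range m, kap (i₀ + 1) v' (c + j)) + i₁ * (N - (c + m)))) := by
        rw [mul_pow, pow_add]
        ring
    _ = _ := by rw [s2]

/-- the rank of the points of a hat at the level `W` is at least the rank of the base points -/
theorem rk_proj {W : ℕ} (hW : 1 ≤ W) (x : ι → γ ⊕ ρ → K) (A : Finset ι) :
    rkF (restrictTotalDegree γ K) (pts (fun e => x e ∘ Sum.inl) A) W ≤
      rkF (Vw K (wh γ ρ W)) (pts x A) W := by
  classical
  rw [H580.pts_eq, H580.pts_eq]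
  refine rkF_proj_le _ _ Sum.inl (finite_Vw _ (wh_ne_zero hW) _) (fun F hF => ?_) x A
  exact rename_mem_Vw_of_total (wh γ ρ W) Sum.inl (fun _ => rfl) hF

section unif

variable [CharZero K] [Infinite K]
variable {c : κ → Finset ι → ι → ℕ} {J : Finset κ} {β : ℕ} {E' : Finset ι} {v : κ → ℕ}

/-! ### systems -/

/-- **(SYS) for the hats** over the base scale: the values of the hat are at least `c₀`, and the
system of the base is completed. -/
theorem hat_sys (h : IsUnif c J β E' v) (hE : E'.Nonempty) (hβ : 1 < β)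
    {b : ℕ} (hb : 1 < b) {W Λ q' c₀ : ℕ} (hW : 1 ≤ W) {x : ι → γ ⊕ ρ → K} {p : ι → S}
    {idxH : ℕ → κ} {KH : ℕ}
    (D : Base (fun e => x e ∘ Sum.inl) p E' W Λ q' c₀)
    (hFH : IsFam c J idxH KH x p (Vw K (wh γ ρ W)) W b) :
    (∀ i ≤ KH, c₀ ≤ v (idxH i)) ∧
    ∀ i₀ ≤ KH, ∀ m, c₀ + m = v (idxH i₀) →
      ∃ F : S → Fin (c₀ + m) → MvPolynomial (γ ⊕ ρ) K,
        (∀ s j, F s (Fin.castAdd m j) = rename Sum.inl (D.f s j)) ∧
        (∀ s, ∀ j : Fin c₀, F s (Fin.castAdd m j) ∈ van x (fib p E' s)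
          (Vw K (wh γ ρ W) (D.d j))) ∧
        (∀ s, ∀ j : Fin m, F s (Fin.natAdd c₀ j) ∈ van x (fib p E' s)
          (Vw K (wh γ ρ W) (W * b ^ kap (i₀ + 1) (fun j => v (idxH j)) (c₀ + j)))) ∧
        ∀ e ∈ E', LinearIndependent K (fun j => H930.grad (x e) (F (p e) j)) := by
  classical
  have hVH := isFilt_Vw (k := K) (wh γ ρ W) (wh_ne_zero hW)
  have hren : ∀ s, ∀ j : Fin c₀, (rename Sum.inl (D.f s j) : MvPolynomial (γ ⊕ ρ) K) ∈
      van x (fib p E' s) (Vw K (wh γ ρ W) (D.d j)) := by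
    intro s j
    refine mem_van.2 ⟨rename_mem_Vw_of_total _ Sum.inl (fun _ => rfl)
      ((mem_restrictTotalDegree _ _ _).2 (D.deg s j)), ?_⟩
    intro e he
    rw [eval_rename]
    exact (mem_van.1 (D.mem_van s j)).2 e he
  have hindr : ∀ e ∈ E', LinearIndependent K
      (fun j => H930.grad (x e) (rename Sum.inl (D.f (p e) j) : MvPolynomial (γ ⊕ ρ) K)) :=
    fun e he => linInd_rename (x e) (D.f (p e)) (D.ind e he)
  have hge : ∀ i ≤ KH, c₀ ≤ v (idxH i) := by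
    intro i hi
    refine le_value h hE hβ hFH hi (fun e he => ?_)
    have hmem : ∀ j : Fin c₀, H930.grad (x e) (rename Sum.inl (D.f (p e) j)) ∈
        gsp x (fib p E' (p e)) (Vw K (wh γ ρ W) (W * b ^ i)) (x e) := by
      intro j
      refine H307.grad_mem_gsp (van_mono (Finset.Subset.refl _) (hVH.mono ?_) (hren (p e) j)) (x e)
      exact (D.d_le j j.2).trans (Nat.le_mul_of_pos_right _ (Nat.pow_pos (by omega)))
    have h1 : Submodule.span K (Set.range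
        (fun j => H930.grad (x e) (rename Sum.inl (D.f (p e) j) : MvPolynomial (γ ⊕ ρ) K))) ≤
        gsp x (fib p E' (p e)) (Vw K (wh γ ρ W) (W * b ^ i)) (x e) := by
      rw [Submodule.span_le]
      rintro _ ⟨j, rfl⟩
      exact hmem j
    have h2 := Submodule.finrank_mono h1
    rw [finrank_span_eq_card (hindr e he), Fintype.card_fin] at h2
    exact h2
  refine ⟨hge, ?_⟩
  intro i₀ hi₀ m hm
  have hone : ∀ s, ∃ F : Fin (c₀ + m) → MvPolynomial (γ ⊕ ρ) K,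
      (∀ j, F (Fin.castAdd m j) = rename Sum.inl (D.f s j)) ∧
      (∀ j : Fin m, F (Fin.natAdd c₀ j) ∈ van x (fib p E' s)
          (Vw K (wh γ ρ W) (W * b ^ (kap (i₀ + 1) (fun j => v (idxH j)) (c₀ + j))))) ∧
      ∀ e ∈ fib p E' s, LinearIndependent K (fun j => H307.grad (x e) (F j)) := by
    intro s
    refine exists_sys_ext (K := K) (fib p E' s) (fun e => H307.grad (x e))
      (fun k => van x (fib p E' s) (Vw K (wh γ ρ W) (W * b ^ k))) (i₀ + 1)
      (Nat.succ_pos _) (fun j => v (idxH j))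
      (fun k l hkl hl => h.fam_mono hE hβ hVH.mono hb.le hFH hkl (by omega)) ?_
      (fun j => rename Sum.inl (D.f s j)) ?_ m (by simpa using hm.le)
    · intro k hk e he
      obtain ⟨he1, he2⟩ := mem_fib.1 he
      have h1 := h.le (idxH k) (hFH k (by omega)).1 E' (Finset.Subset.refl _) e he1
      rw [(hFH k (by omega)).2] at h1
      unfold gfr at h1
      rw [he2] at h1
      exact h1
    · intro e he
      obtain ⟨he1, he2⟩ := mem_fib.1 he
      have h1 := hindr e he1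
      rw [he2] at h1
      exact h1
  choose F hF1 hF2 hF3 using hone
  refine ⟨F, hF1, ?_, hF2, ?_⟩
  · intro s j
    rw [hF1]
    exact hren s j
  · intro e he
    exact hF3 (p e) e (self_mem_fib he)

/-! ### lower bound -/

/-- **lower bound for the hats on dense sets** -/
theorem hat_lower_u {N k C₁ L K₀ q q' W Λ c₀ : ℕ} (hP : Par N k β C₁ L K₀ q J.card)
    (h : IsUnif c J β E' v)
    (hmono : ∀ j ∈ J, ∀ A B : Finset ι, A ⊆ B → B ⊆ E' → ∀ e ∈ A, c j B e ≤ c j A e)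
    (hN : Fintype.card γ + Fintype.card ρ ≤ N) (hW : 1 ≤ W) {x : ι → γ ⊕ ρ → K} {p : ι → S}
    {idxH : ℕ → κ} (D : Base (fun e => x e ∘ Sum.inl) p E' W Λ q' c₀) {i₁ : ℕ}
    (hFH : IsFam c J idxH i₁ x p (Vw K (wh γ ρ W)) W (β ^ L))
    (hi₁ : i₁ ≤ K₀) {B : Finset ι} (hB : B ⊆ E') {r : ℕ} (hr : 2 * r ≤ q) (hr' : 2 * r ≤ q')
    (hd : E'.card < r * B.card) :
    ∃ e ∈ B, D.R * (β ^ L) ^ (∑ i ∈ range i₁, (Fintype.card γ + Fintype.card ρ - v (idxH i))) ≤
      (Λ * (((C₁ ^ (Fintype.card γ + Fintype.card ρ) *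
          (Fintype.card γ + Fintype.card ρ).factorial) ^ L) ^ i₁ *
        (β ^ L) ^ ((Fintype.card γ + Fintype.card ρ) * (Fintype.card γ + Fintype.card ρ)))) *
      rkF (Vw K (wh γ ρ W)) (pts x (fib p B (p e))) (W * (β ^ L) ^ i₁) := by
  classical
  have hb1 := hP.b_gt_one
  have hVH := isFilt_Vw (k := K) (wh γ ρ W) (wh_ne_zero hW)
  have hderH : ∀ n (i : γ ⊕ ρ) (F : MvPolynomial (γ ⊕ ρ) K),
      F ∈ Vw K (wh γ ρ W) n → pderiv i F ∈ Vw K (wh γ ρ W) n :=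
    fun n i F hF => Vw_mono _ (Nat.sub_le _ _) (pderiv_mem_Vw _ hF i)
  have hXH : ∀ i : γ ⊕ ρ, (X i : MvPolynomial (γ ⊕ ρ) K) ∈ Vw K (wh γ ρ W) W :=
    fun i => X_mem_Vw_le _ (wh_le hW) i
  have hd1 := core_dense hP h hmono hB hr hd
  have hA1 : core c J v B (K₀ * (L * k)) ⊆ E' := (core_subset _ _).trans hB
  obtain ⟨e, he, h1⟩ := D.low _ hA1 (hd1.trans_le (Nat.mul_le_mul_right _ hr'))
  refine ⟨e, core_subset _ _ he, ?_⟩
  have hcardH : Fintype.card (γ ⊕ ρ) = Fintype.card γ + Fintype.card ρ := Fintype.card_sum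
  have h2 := fam_lower hP hVH hderH hXH (by rw [hcardH]; exact hN) hi₁ hFH he
  rw [hcardH] at h2
  have h3 := rk_proj hW x (fib p (core c J v B (K₀ * (L * k))) (p e))
  set X := ((C₁ ^ (Fintype.card γ + Fintype.card ρ) *
          (Fintype.card γ + Fintype.card ρ).factorial) ^ L) ^ i₁ *
        (β ^ L) ^ ((Fintype.card γ + Fintype.card ρ) * (Fintype.card γ + Fintype.card ρ)) with hX
  calc D.R * (β ^ L) ^ (∑ i ∈ range i₁, (Fintype.card γ + Fintype.card ρ - v (idxH i)))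
      ≤ (Λ * rkF (Vw K (wh γ ρ W)) (pts x (fib p (core c J v B (K₀ * (L * k))) (p e))) W) *
        (β ^ L) ^ (∑ i ∈ range i₁, (Fintype.card γ + Fintype.card ρ - v (idxH i))) :=
        Nat.mul_le_mul_right _ (h1.trans (Nat.mul_le_mul_left _ h3))
    _ = Λ * ((β ^ L) ^ (∑ i ∈ range i₁, (Fintype.card γ + Fintype.card ρ - v (idxH i))) *
          rkF (Vw K (wh γ ρ W)) (pts x (fib p (core c J v B (K₀ * (L * k))) (p e))) W) := by ring
    _ ≤ Λ * (X * rkF (Vw K (wh γ ρ W)) (pts x (fib p B (p e))) (W * (β ^ L) ^ i₁)) :=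
        Nat.mul_le_mul_left _ h2
    _ = _ := by ring

/-! ### [GOOD] -/

/-- **[GOOD] for the hats** on a dense subset `A` (`|E'| ≤ r |A|`), at the level `W * b ^ i`. -/
theorem hat_GOOD {N k C₁ L K₀ q q' W c₀ : ℕ} (hP : Par N k β C₁ L K₀ q J.card)
    (h : IsUnif c J β E' v) (hE : E'.Nonempty)
    (hmono : ∀ j ∈ J, ∀ A B : Finset ι, A ⊆ B → B ⊆ E' → ∀ e ∈ A, c j B e ≤ c j A e)
    (hN : Fintype.card γ + Fintype.card ρ ≤ N) (hW : 1 ≤ W) (i₀ i₁ : ℕ) (hi : i₀ ≤ i₁)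
    {x : ι → γ ⊕ ρ → K} {p : ι → S} {idxH : ℕ → κ}
    (D : Base (fun e => x e ∘ Sum.inl) p E' W (β ^ L) q' c₀)
    (hFH : IsFam c J idxH i₁ x p (Vw K (wh γ ρ W)) W (β ^ L))
    (hi₁ : i₁ ≤ K₀)
    (hconst : ∀ i, i₀ ≤ i → i < i₁ → v (idxH i) = v (idxH i₀))
    {m : ℕ} (hm : v (idxH i₀) = c₀ + m)
    (F : S → Fin (c₀ + m) → MvPolynomial (γ ⊕ ρ) K)
    (hF1 : ∀ s, ∀ j : Fin c₀, F s (Fin.castAdd m j) ∈ van x (fib p E' s)
      (Vw K (wh γ ρ W) (D.d j)))
    (hF2 : ∀ s, ∀ j : Fin m, F s (Fin.natAdd c₀ j) ∈ van x (fib p E' s)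
      (Vw K (wh γ ρ W) (W * (β ^ L) ^ kap (i₀ + 1) (fun j => v (idxH j)) (c₀ + j))))
    (hF3 : ∀ e ∈ E', LinearIndependent K (fun j => H930.grad (x e) (F (p e) j)))
    {A : Finset ι} (hA : A ⊆ E') {r β' : ℕ} (hr : E'.card ≤ r * A.card)
    (hrq : 2 * (r * β') ≤ q) (hrq' : 2 * (r * β') ≤ q')
    (i : ℕ) (hii : i + N * N + 4 ≤ i₁)
    (Y : Finset ι) (hYA : Y ⊆ A)
    (hY : ∀ e ∈ Y, ∃ G ∈ Vw K (wh γ ρ W) (W * (β ^ L) ^ i),
      (∀ a ∈ A, p a = p e → eval (x a) G = 0) ∧ G ∉ germ (x e) (F (p e))) :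
    β' * Y.card ≤ A.card := by
  classical
  have hb1 : 1 < β ^ L := hP.b_gt_one
  have hVH := isFilt_Vw (k := K) (wh γ ρ W) (wh_ne_zero hW)
  have hcardH : Fintype.card (γ ⊕ ρ) = Fintype.card γ + Fintype.card ρ := Fintype.card_sum
  have hge := (hat_sys h hE hP.beta_gt_one hb1 hW D hFH).1
  have hcH : c₀ + m ≤ Fintype.card γ + Fintype.card ρ := by
    rw [← hm, ← hcardH]
    exact fam_le_card h hE hFH hi
  have hmem : ∀ s, ∀ j : Fin (c₀ + m), ∀ a ∈ fib p E' s, eval (x a) (F s j) = 0 := by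
    intro s j a ha
    refine Fin.addCases (fun j => ?_) (fun j => ?_) j
    · exact (mem_van.1 (hF1 s j)).2 a ha
    · exact (mem_van.1 (hF2 s j)).2 a ha
  have hTT : W * (β ^ L) ^ i₁ + (β ^ L) ^ (i₁ - i) * (W * (β ^ L) ^ i) = 2 * (W * (β ^ L) ^ i₁) := by
    have : (β ^ L) ^ (i₁ - i) * (W * (β ^ L) ^ i) = W * (β ^ L) ^ i₁ := by
      rw [mul_left_comm, ← pow_add, Nat.sub_add_cancel (by omega)]
    rw [this]; ring
  set sH := ∑ i ∈ range i₁, (Fintype.card γ + Fintype.card ρ - v (idxH i)) with hsH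
  set X := ((C₁ ^ (Fintype.card γ + Fintype.card ρ) *
          (Fintype.card γ + Fintype.card ρ).factorial) ^ L) ^ i₁ with hX
  set M₂ := (Fintype.card γ + Fintype.card ρ) * (Fintype.card γ + Fintype.card ρ) with hM₂
  set Q := (2 * (Fintype.card γ + Fintype.card ρ + 2)) ^ (Fintype.card γ + Fintype.card ρ) with hQ
  refine hVH.good_num p x A F
    (fun e he j => hmem (p e) j e (mem_fib.2 ⟨hA he, rfl⟩)) (fun e he => hF3 e (hA he))
    (T := W * (β ^ L) ^ i) (T' := W * (β ^ L) ^ i₁) (J := (β ^ L) ^ (i₁ - i))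
    (C₁ := Q * (β ^ L)) (Λ := (β ^ L) * (X * (β ^ L) ^ M₂)) (E := D.R * (β ^ L) ^ sH)
    (Nat.mul_pos D.R_pos (Nat.one_le_pow _ _ hb1.le)) ?_ ?_ ?_ Y hYA hY
  · intro s Z hZ
    rw [hTT]
    have hZE : ∀ e ∈ Z, e ∈ fib p E' s := by
      intro e he
      obtain ⟨h1, h2⟩ := Finset.mem_filter.1 (hZ he)
      exact mem_fib.2 ⟨hA h1, h2⟩
    refine (hat_up W (β ^ L) hW hb1.le i₀ i₁ hi D.d (fun j => v (idxH j))
      (fun k l hkl hl => h.fam_mono hE hP.beta_gt_one hVH.mono hb1.le hFH hkl (hl.trans hi))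
      hconst D.d_pos hm (fun i hi' => hge i (hi'.trans hi)) D.c_le hcH x Z (F s)
      (fun j => (mem_van.1 (hF1 s j)).1) (fun j => (mem_van.1 (hF2 s j)).1) ?_ ?_).trans ?_
    · intro e he j
      exact hmem s j e (hZE e he)
    · intro e he
      obtain ⟨h1, h2⟩ := mem_fib.1 (hZE e he)
      rw [← h2]
      exact hF3 e h1
    · calc Q * (((∏ j ∈ range c₀, D.d j) * W ^ (Fintype.card γ - c₀)) * (β ^ L) ^ sH)
          ≤ Q * (((β ^ L) * D.R) * (β ^ L) ^ sH) := Nat.mul_le_mul_left _ (Nat.mul_le_mul_right _ D.up)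
        _ = Q * (β ^ L) * (D.R * (β ^ L) ^ sH) := by ring
  · intro B hB hcard
    have hBd : E'.card < (r * β') * B.card := by
      rcases Nat.eq_zero_or_pos r with h0 | h0
      · exfalso
        rw [h0, zero_mul] at hr
        have := hE.card_pos
        omega
      · calc E'.card ≤ r * A.card := hr
          _ < r * (β' * B.card) := Nat.mul_lt_mul_of_pos_left hcard h0
          _ = (r * β') * B.card := by ring
    obtain ⟨e, he, h1⟩ := hat_lower_u hP h hmono hN hW D hFH hi₁ (hB.trans hA) hrq hrq' hBd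
    refine ⟨e, he, ?_⟩
    rw [fib_eq p B (p e), H580.pts_eq] at h1
    exact h1
  · have h1 := hP.loss (M₁ := Fintype.card γ + Fintype.card ρ) (M₂ := 0)
      (M₃ := Fintype.card γ + Fintype.card ρ) (K₁ := 0) hN (Nat.zero_le _) hN (Nat.zero_le _) hi₁
    rw [pow_zero, one_mul, ← hQ, ← hX] at h1
    have h3 : M₂ ≤ N * N := Nat.mul_le_mul hN hN
    calc Q * (β ^ L) * ((β ^ L) * (X * (β ^ L) ^ M₂)) = (Q * X) * ((β ^ L) * (β ^ L) * (β ^ L) ^ M₂) := by ring
      _ ≤ (β ^ L) * ((β ^ L) * (β ^ L) * (β ^ L) ^ M₂) := Nat.mul_le_mul_right _ h1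
      _ = (β ^ L) ^ (M₂ + 3) := by ring
      _ < (β ^ L) ^ (i₁ - i) := Nat.pow_lt_pow_right hb1 (by omega)

end unif

end Vale.Agent.P054.T3.H182
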