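import Vale.Agent.P054.T2.H930.HatVert
import Vale.Agent.P054.T3.H182.Hat

set_option autoImplicit false
set_option linter.unusedSectionVars false

/-!
# P054 / T3: one hat over the base scale `W`: exceptional set of [GOOD] and of the vertical
independence
-/

open MvPolynomial Module Finset

namespace Vale.Agent.P054.T3.H182

open Vale.Agent.P054.T2
open Vale.Agent.P054.T2.H580 (rkF hilbF IsFilt isFilt_total isFilt_Vw Vw wh Vw_one_eq Vw_mono
  Par kap wh_ne_zero fam_le_card)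
open Vale.Agent.P054.T2.H307 (van pts mem_van mem_pts van_mono IsUnif IsFam gfr core core_subset
  fib mem_fib fib_mono fib_subset self_mem_fib)

variable {ι κ K : Type*} [Field K] [CharZero K] [Infinite K]
variable {c : κ → Finset ι → ι → ℕ} {J : Finset κ} {β : ℕ} {E' : Finset ι} {v : κ → ℕ}
variable {γ ρ : Type*} [Fintype γ] [Fintype ρ] [DecidableEq γ] [DecidableEq ρ]

/-- lower bound for the points of dense sets, one fibre, in the form of `hat_vert` -/
theorem lower_dense {N k C₁ L K₀ q q' W c₀ : ℕ} (hP : Par N k β C₁ L K₀ q J.card)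
    (h : IsUnif c J β E' v)
    (hmono : ∀ j ∈ J, ∀ A B : Finset ι, A ⊆ B → B ⊆ E' → ∀ e ∈ A, c j B e ≤ c j A e)
    (hN : Fintype.card γ ≤ N) (hW : 1 ≤ W) {x : ι → γ → K} {idxF : ℕ → κ}
    (D : Base x (fun _ => ()) E' W (β ^ L) q' c₀) {i : ℕ} (hi : i ≤ K₀)
    (hFF : IsFam c J idxF i x (fun _ => ()) (restrictTotalDegree γ K) W (β ^ L))
    (hw : ∀ j ≤ i, v (idxF j) = c₀)
    {B : Finset ι} (hB : B ⊆ E') {r : ℕ} (hr : 2 * r ≤ q) (hr' : 2 * r ≤ q')
    (hd : E'.card < r * B.card) :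
    (∏ j ∈ range c₀, D.d j) * ((β ^ L) ^ i * W) ^ (Fintype.card γ - c₀) ≤
      (β ^ L) ^ 3 * rkF (restrictTotalDegree γ K) (pts x B) ((β ^ L) ^ i * W) := by
  classical
  obtain ⟨e, -, h1⟩ := D.lower hP h hmono hN hW hi hFF hw hB hr hr' hd
  have hfib : fib (fun _ : ι => ()) B ((fun _ : ι => ()) e) = B := H307.fib_unit B ()
  rw [hfib] at h1
  have hloss := hP.loss (M₁ := 0) (M₂ := Fintype.card γ) (M₃ := 0) (K₁ := i) (K₂ := 0)
    (Nat.zero_le N) hN (Nat.zero_le N) hi (Nat.zero_le K₀)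
  simp only [pow_zero, one_mul, mul_one] at hloss
  calc (∏ j ∈ range c₀, D.d j) * ((β ^ L) ^ i * W) ^ (Fintype.card γ - c₀)
      = ((∏ j ∈ range c₀, D.d j) * W ^ (Fintype.card γ - c₀)) *
          ((β ^ L) ^ i) ^ (Fintype.card γ - c₀) := by rw [mul_pow]; ring
    _ ≤ ((β ^ L) * D.R) * ((β ^ L) ^ i) ^ (Fintype.card γ - c₀) := Nat.mul_le_mul_right _ D.up
    _ = (β ^ L) * (D.R * ((β ^ L) ^ i) ^ (Fintype.card γ - c₀)) := by ring
    _ ≤ (β ^ L) * (((β ^ L) * ((C₁ ^ (Fintype.card γ) * (Fintype.card γ).factorial) ^ L) ^ i) *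
        rkF (restrictTotalDegree γ K) (pts x B) (W * (β ^ L) ^ i)) := Nat.mul_le_mul_left _ h1
    _ ≤ (β ^ L) * (((β ^ L) * (β ^ L)) * rkF (restrictTotalDegree γ K) (pts x B) (W * (β ^ L) ^ i)) :=
        Nat.mul_le_mul_left _ (Nat.mul_le_mul_right _ (Nat.mul_le_mul_left _ hloss))
    _ = (β ^ L) ^ 3 * rkF (restrictTotalDegree γ K) (pts x B) ((β ^ L) ^ i * W) := by
        rw [mul_comm W]; ring

/-- **[HAT-PACK].**  One hat over a uniform set: outside `Y` (`r |Y| ≤ |E'|`) the vertical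
gradients of `hh` are independent, and every polynomial of level `W * b ^ (i₀ + 1)` which
vanishes on the dense set `E1` is in the germ prime. -/
theorem hat_pack {N k C₁ L K₀ q q' W c₀ : ℕ} (hP : Par N k β C₁ L K₀ q J.card)
    (h : IsUnif c J β E' v) (hE : E'.Nonempty)
    (hmono : ∀ j ∈ J, ∀ A B : Finset ι, A ⊆ B → B ⊆ E' → ∀ e ∈ A, c j B e ≤ c j A e)
    (hN0 : 0 < N) (hN : Fintype.card γ + (Fintype.card γ + Fintype.card ρ) ≤ N)
    (hN' : Fintype.card ρ + (Fintype.card γ + Fintype.card ρ) ≤ N) (hW : 1 ≤ W)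
    (i₀ i₁ : ℕ) {x : ι → γ ⊕ ρ → K} {idxF idxH : ℕ → κ}
    (D : Base (fun e => x e ∘ Sum.inl) (fun _ => ()) E' W (β ^ L) q' c₀)
    (hFF : IsFam c J idxF K₀ (fun e => x e ∘ Sum.inl) (fun _ => ()) (restrictTotalDegree γ K) W
      (β ^ L))
    (hFH : IsFam c J idxH K₀ x (fun _ => ()) (Vw K (wh γ ρ W)) W (β ^ L))
    (hwF : ∀ i ≤ K₀, v (idxF i) = c₀)
    (hwH : ∀ i, i₀ ≤ i → i ≤ i₁ → v (idxH i) = v (idxH i₀))
    (hi₁ : i₁ ≤ K₀) (hgeo : i₀ + 1 + (N * N + 4) ≤ i₁)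
    (hlong : i₀ * N + 5 ≤ K₀)
    {m : ℕ} (hm : v (idxH i₀) = c₀ + m)
    (hh : Fin m → MvPolynomial (γ ⊕ ρ) K)
    (hhv : ∀ j : Fin m, hh j ∈ van x E' (Vw K (wh γ ρ W)
        (W * (β ^ L) ^ kap (i₀ + 1) (fun j => v (idxH j)) (c₀ + j))))
    (hind : ∀ e ∈ E', LinearIndependent K (fun i => H930.grad (x e)
      ((Fin.append (fun i => rename Sum.inl (D.f () i)) hh :
        Fin (c₀ + m) → MvPolynomial (γ ⊕ ρ) K) i)))
    {E1 : Finset ι} (hE1 : E1 ⊆ E') (hE1c : E'.card ≤ 2 * E1.card) (r : ℕ)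
    (hr : 16 * (N + 1) * (Fintype.card ρ ^ Fintype.card ρ + 1) * (r + 1) ≤ q)
    (hr' : 16 * (N + 1) * (Fintype.card ρ ^ Fintype.card ρ + 1) * (r + 1) ≤ q') :
    ∃ Y ⊆ E', r * Y.card ≤ E'.card ∧ ∀ e ∈ E1, e ∉ Y →
      LinearIndependent K (fun (i : Fin m) (b : ρ) => eval (x e) (pderiv (Sum.inr b) (hh i))) ∧
      ∀ P ∈ Vw K (wh γ ρ W) (W * (β ^ L) ^ (i₀ + 1)),
        (∀ a ∈ E1, eval (x a) P = 0) → P ∈ H930.germ (x e)
          (Fin.append (fun i => rename Sum.inl (D.f () i)) hh :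
            Fin (c₀ + m) → MvPolynomial (γ ⊕ ρ) K) := by
  classical
  set f : Fin (c₀ + m) → MvPolynomial (γ ⊕ ρ) K :=
    Fin.append (fun i => rename Sum.inl (D.f () i)) hh with hf
  have hb1 := hP.b_gt_one
  have hD1 : 1 ≤ (β ^ L) ^ i₀ := Nat.one_le_pow _ _ hb1.le
  have hVH := H580.isFilt_Vw (k := K) (wh γ ρ W) (wh_ne_zero hW)
  have hmonH : ∀ k l : ℕ, k ≤ l → l ≤ i₀ → v (idxH k) ≤ v (idxH l) := fun k l hkl hl =>
    h.fam_mono hE hP.beta_gt_one hVH.mono hb1.le hFH hkl (by omega)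
  have hcγ : c₀ ≤ Fintype.card γ := D.c_le
  have hcardH : Fintype.card (γ ⊕ ρ) = Fintype.card γ + Fintype.card ρ := Fintype.card_sum
  have hcH : c₀ + m ≤ Fintype.card γ + Fintype.card ρ := by
    rw [← hm, ← hcardH]
    exact fam_le_card h hE hFH (by omega)
  have hfibE : ∀ s : Unit, fib (fun _ : ι => ()) E' s = E' := fun s => H307.fib_unit E' s
  have hcard_arr : c₀ + m ≤ N ∧ m ≤ N := by constructor <;> omega
  -- the two parts as elements of `van`
  have hF1 : ∀ j : Fin c₀, f (Fin.castAdd m j) ∈ van x E' (Vw K (wh γ ρ W) (D.d j)) := by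
    intro j
    rw [hf, Fin.append_left]
    refine mem_van.2 ⟨H580.rename_mem_Vw_of_total _ Sum.inl (fun _ => rfl)
      ((mem_restrictTotalDegree _ _ _).2 (D.deg () j)), ?_⟩
    intro e he
    rw [eval_rename]
    exact D.zero e he j
  have hF2 : ∀ j : Fin m, f (Fin.natAdd c₀ j) ∈ van x E'
      (Vw K (wh γ ρ W) (W * (β ^ L) ^ kap (i₀ + 1) (fun j => v (idxH j)) (c₀ + j))) := by
    intro j
    rw [hf, Fin.append_right]
    exact hhv j
  -- [GOOD] on dense sets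
  have hGOOD : ∀ (A : Finset ι), A ⊆ E' → ∀ (r' β' : ℕ), E'.card ≤ r' * A.card →
      2 * (r' * β') ≤ q → 2 * (r' * β') ≤ q' → β' * (A.filter (fun e => ∃ G ∈ Vw K (wh γ ρ W)
        (W * (β ^ L) ^ (i₀ + 1)), (∀ a ∈ A, eval (x a) G = 0) ∧
          G ∉ H930.germ (x e) f)).card ≤ A.card := by
    intro A hA r' β' hr1 hq1 hq2
    refine hat_GOOD (S := Unit) hP h hE hmono (by omega) hW i₀ i₁ (by omega)
      (p := fun _ => ()) (idxH := idxH) D
      (fun j hj => hFH j (by omega)) hi₁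
      (fun i h1 h2 => hwH i h1 h2.le) hm (fun _ => f)
      (fun s j => by rw [hfibE]; exact hF1 j) (fun s j => by rw [hfibE]; exact hF2 j) hind hA hr1
      hq1 hq2 (i₀ + 1) (by omega) _ (Finset.filter_subset _ _) ?_
    intro e he
    obtain ⟨G, h1, h2, h3⟩ := (Finset.mem_filter.1 he).2
    exact ⟨G, h1, fun a ha _ => h2 a ha, h3⟩
  set M := Fintype.card ρ with hM
  have hqN : 16 * (N * (M ^ M * r)) + 16 * (N * r) + 16 ≤
      16 * (N + 1) * (M ^ M + 1) * (r + 1) := by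
    have e1 : 16 * (N + 1) * (M ^ M + 1) * (r + 1) = 16 * (N * (M ^ M * r)) + 16 * (N * r) +
      16 * (N * M ^ M) + 16 * N + 16 * ((M ^ M + 1) * (r + 1)) := by ring
    rw [e1]
    have e2 : 1 ≤ (M ^ M + 1) * (r + 1) := Nat.mul_pos (Nat.succ_pos _) (Nat.succ_pos _)
    omega
  have hqN1 := hqN.trans hr
  have hqN2 := hqN.trans hr'
  -- exceptional set of [GOOD]
  set Y₁ := E1.filter (fun e => ∃ G ∈ Vw K (wh γ ρ W)
        (W * (β ^ L) ^ (i₀ + 1)), (∀ a ∈ E1, eval (x a) G = 0) ∧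
          G ∉ H930.germ (x e) f) with hY₁
  have hY₁c : 2 * r * Y₁.card ≤ E'.card := by
    have hrN : r ≤ N * r := Nat.le_mul_of_pos_left r hN0
    refine (hGOOD E1 hE1 2 (2 * r) hE1c ?_ ?_).trans (Finset.card_le_card hE1)
    · omega
    · omega
  -- exceptional set of the vertical independence
  have hNb : N + 3 ≤ β ^ L := by
    have h1 := hP.hβ
    have h2 := hP.hk
    have h3 : N + 2 ≤ k * (N + 2) := Nat.le_mul_of_pos_left _ h2
    have h4 : β ≤ β ^ L := Nat.le_self_pow hP.hL.ne' _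
    omega
  have hconstb : 2 ^ N * (N + 1) ^ N ≤ β ^ L := by
    have h1 := hP.hconst
    have h4 : β ≤ β ^ L := Nat.le_self_pow hP.hL.ne' _
    refine le_trans ?_ (h1.trans h4)
    calc 2 ^ N * (N + 1) ^ N ≤ 2 ^ N * (N + 2) ^ N :=
          Nat.mul_le_mul_left _ (Nat.pow_le_pow_left (by omega) _)
      _ = (2 * (N + 2)) ^ N := by rw [mul_pow]
      _ ≤ (2 * (N + 2)) ^ N * (C₁ ^ N * N.factorial) ^ (2 * K₀) :=
          Nat.le_mul_of_pos_right _ (Nat.pow_pos (hP.const_pos N))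
  obtain ⟨Y₂, hY₂E, hY₂c, hY₂⟩ := H930.hat_vert E' x hcγ (D.f ()) hh D.d D.d_pos W ((β ^ L) ^ i₀)
    hW hD1
    (fun j => D.deg () j)
    (fun j hj => (D.d_le j hj).trans (Nat.le_mul_of_pos_right _ hD1))
    (fun j => by
      refine Vw_mono _ (Nat.mul_le_mul_left _ (Nat.pow_le_pow_right hb1.le ?_))
        (mem_van.1 (hhv j)).1
      exact H580.kap_le_of_lt (i₀ + 1) (fun j => v (idxH j))
        (fun k l hkl hl => hmonH k l hkl (by omega)) (c₀ + j) i₀
        (by rw [hm]; have := j.2; omega))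
    (fun e he i => by
      refine Fin.addCases (fun i => ?_) (fun i => ?_) i
      · exact (mem_van.1 (hF1 i)).2 e he
      · exact (mem_van.1 (hF2 i)).2 e he)
    hind (2 * r * N)
    (fun A hA hc => by
      have e1 : 2 * (2 * r * N * 2) = 8 * (N * r) := by ring
      have h1 := hGOOD A hA (2 * r * N) 2 hc.le (by omega) (by omega)
      refine ⟨A \ A.filter (fun e => ∃ G ∈ Vw K (wh γ ρ W)
        (W * (β ^ L) ^ (i₀ + 1)), (∀ a ∈ A, eval (x a) G = 0) ∧
          G ∉ H930.germ (x e) f), Finset.sdiff_subset, ?_, ?_⟩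
      · rw [Finset.card_sdiff_of_subset (Finset.filter_subset _ _)]
        omega
      · intro e he F hF hF0
        obtain ⟨h2, h3⟩ := Finset.mem_sdiff.1 he
        by_contra hcon
        refine h3 (Finset.mem_filter.2 ⟨h2, F, ?_, hF0, hcon⟩)
        refine Vw_mono _ ?_ hF
        calc (M + 1) * (W * (β ^ L) ^ i₀) ≤ β ^ L * (W * (β ^ L) ^ i₀) :=
              Nat.mul_le_mul_right _ (by omega)
          _ = W * (β ^ L) ^ (i₀ + 1) := by rw [pow_succ]; ring)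
    ((β ^ L) ^ (i₀ * N + 5)) ((β ^ L) ^ 3)
    (Nat.one_le_pow _ _ hb1.le)
    (fun A' hA' hc => by
      have e1 : 2 * (2 * (2 * r * N) * M ^ M + 1) = 8 * (N * (M ^ M * r)) + 2 := by ring
      have h1 := lower_dense hP h hmono (by omega) hW (x := fun e => x e ∘ Sum.inl) D
        (i := i₀ * N + 5) (by omega) (fun j hj => hFF j (by omega))
        (fun j h1 => hwF j (by omega)) hA'
        (r := 2 * (2 * r * N) * M ^ M + 1) (by omega) (by omega) hc
      have e2 : H307.pts (fun e => x e ∘ Sum.inl) A' =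
          A'.image fun e => fun a => x e (Sum.inl a) := H580.pts_eq _ _
      rw [e2] at h1
      exact h1)
    (by
      have e1 : 2 ^ (Fintype.card γ + (c₀ + m)) ≤ 2 ^ N :=
        Nat.pow_le_pow_right (by norm_num) (by omega)
      have e2 : (M + 1 + (c₀ + m)) ^ (Fintype.card γ + M) ≤ (N + 1) ^ N :=
        (Nat.pow_le_pow_left (by omega) _).trans (Nat.pow_le_pow_right (by omega) (by omega))
      have e3 : ((β ^ L) ^ i₀) ^ m ≤ (β ^ L) ^ (i₀ * N) := by
        rw [← pow_mul]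
        exact Nat.pow_le_pow_right hb1.le (Nat.mul_le_mul_left _ hcard_arr.2)
      calc 2 ^ (Fintype.card γ + (c₀ + m)) * (β ^ L) ^ 3 *
            (M + 1 + (c₀ + m)) ^ (Fintype.card γ + M) * ((β ^ L) ^ i₀) ^ m
          ≤ 2 ^ N * (β ^ L) ^ 3 * (N + 1) ^ N * (β ^ L) ^ (i₀ * N) :=
            Nat.mul_le_mul (Nat.mul_le_mul (Nat.mul_le_mul_right _ e1) e2) e3
        _ = (2 ^ N * (N + 1) ^ N) * ((β ^ L) ^ 3 * (β ^ L) ^ (i₀ * N)) := by ring
        _ ≤ β ^ L * ((β ^ L) ^ 3 * (β ^ L) ^ (i₀ * N)) :=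
            Nat.mul_le_mul_right _ hconstb
        _ = (β ^ L) ^ (i₀ * N + 4) := by ring
        _ ≤ (β ^ L) ^ (i₀ * N + 5) := Nat.pow_le_pow_right hb1.le (by omega))
  refine ⟨Y₁ ∪ Y₂, Finset.union_subset ((Finset.filter_subset _ _).trans hE1) hY₂E, ?_, ?_⟩
  · have h1 : 2 * r * Y₂.card ≤ E'.card := by
      have h2 : N * (2 * r * Y₂.card) ≤ N * E'.card := by
        calc N * (2 * r * Y₂.card) = 2 * r * N * Y₂.card := by ring
          _ ≤ m * E'.card := hY₂c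
          _ ≤ N * E'.card := Nat.mul_le_mul_right _ hcard_arr.2
      exact Nat.le_of_mul_le_mul_left h2 hN0
    have h3 : r * (Y₁ ∪ Y₂).card ≤ r * (Y₁.card + Y₂.card) :=
      Nat.mul_le_mul_left _ (Finset.card_union_le _ _)
    have h4 : r * (Y₁.card + Y₂.card) = r * Y₁.card + r * Y₂.card := by ring
    have h5 : 2 * r * Y₁.card = 2 * (r * Y₁.card) := by ring
    have h6 : 2 * r * Y₂.card = 2 * (r * Y₂.card) := by ring
    omega
  · intro e he heY
    rw [Finset.mem_union, not_or] at heY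
    refine ⟨hY₂ e (hE1 he) heY.2, ?_⟩
    intro P hP hP0
    by_contra hcon
    exact heY.1 (Finset.mem_filter.2 ⟨he, P, hP, hP0, hcon⟩)

end Vale.Agent.P054.T3.H182
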