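import Vale.Agent.P054.T3.H182.BData
import Vale.Agent.P054.T3.H182.HatPack
import Vale.Agent.P054.T2.H930.GlueB1
import Vale.Agent.P054.T2.H686.EW2
import Vale.Agent.P054.T2.H441.ATriple
import Vale.Agent.P054.T2.H428.SecC

set_option autoImplicit false
set_option linter.unusedSectionVars false

/-!
# P054 / T3, [ZPACK] over the base scale: the data of `Z⁺` from `BData`
-/

open MvPolynomial Module Finset

namespace Vale.Agent.P054.T3.H182

open Vale.Agent.P054.T2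
open Vale.Agent.P054.T2.H580 (Vw wh Par kap wh_ne_zero wh_le rename_mem_Vw_of_total)
open Vale.Agent.P054.T2.H307 (van pts mem_van mem_pts van_mono IsUnif IsFam gfr gr gsp core
  core_subset core_value core_zero grad_mem_gsp fib mem_fib Ed NN xF xL xH1 xH2 wB)
open Vale.Agent.P054.T2.H686 (mu meet Qf Crd meet_comm)
open Vale.Agent.P054.T2.H930 (ZData germ grad Pt edgePt hatPt ptc)

variable {n : ℕ}

/-- annihilator of the gradients of the leaf equations -/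
theorem leaf_annih {S : Type*} {p : Ed n ℝ → S} {E' : Finset (Ed n ℝ)} {T σ : ℕ} {e : Ed n ℝ}
    (hgr : gfr xL p (restrictTotalDegree (Fin n) ℝ) T E' e + σ = n) :
    ∃ W : Submodule ℝ (Fin n → ℝ), σ ≤ finrank ℝ W ∧
      ∀ G : MvPolynomial (Fin n) ℝ, G.totalDegree ≤ T →
        (∀ e' ∈ E', p e' = p e → eval (mu e'.1 e'.2) G = 0) →
        ∀ w ∈ W, ∑ i, w i * eval (mu e.1 e.2) (pderiv i G) = 0 := by
  refine ⟨H686.perp (gsp xL (fib p E' (p e)) (restrictTotalDegree (Fin n) ℝ T) (xL e)), ?_, ?_⟩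
  · have h1 := H686.finrank_perp
      (gsp xL (fib p E' (p e)) (restrictTotalDegree (Fin n) ℝ T) (xL e))
    rw [Fintype.card_fin] at h1
    unfold gfr gr at hgr
    omega
  · intro G hG hG0 w hw
    have hmem : G ∈ van xL (fib p E' (p e)) (restrictTotalDegree (Fin n) ℝ T) :=
      mem_van.2 ⟨(mem_restrictTotalDegree _ _ _).2 hG,
        fun e' he' => hG0 e' (mem_fib.1 he').1 (mem_fib.1 he').2⟩
    exact hw _ (grad_mem_gsp hmem (xL e))

theorem xH1_eq (e : Ed n ℝ) : xH1 e = hatPt e.1 (mu e.1 e.2) := rfl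

theorem xH2_eq {e : Ed n ℝ} (h0 : e.1.1 0 ≠ e.2.1 0) (hq : Qf (e.1 - e.2) = 0) :
    xH2 e = hatPt e.2 (mu e.2 e.1) := by
  show Sum.elim (meet e.1 e.2) (ptc e.2) = Sum.elim (meet e.2 e.1) (ptc e.2)
  rw [meet_comm h0 hq]

/-- the concrete form of the systems of `Z` -/
structure ZP3 (W b i₀ : ℕ) (E' : Finset (Ed n ℝ)) (v : F5 × ℕ → ℕ) {Λ q : ℕ}
    (bF : Base (K := ℝ) xF (fun _ : Ed n ℝ => ()) E' W Λ q (v (F5.F, 0)))
    {E1 E2 : Finset (Ed n ℝ)} {c₁ c₂ σ₁ σ₂ : ℕ}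
    (Z : ZData ℝ n E' E1 E2 (wh (Crd n) (Pt n) W) (W * b ^ i₀) (v (F5.F, 0)) c₁ c₂ σ₁ σ₂) :
    Prop where
  hf : Z.f = bF.f ()
  hH1 : v (F5.F, 0) + c₁ = v (F5.H1, i₀)
  hH2 : v (F5.F, 0) + c₂ = v (F5.H2, i₀)
  hσ₁ : σ₁ = n - v (F5.L1, 0)
  hσ₂ : σ₂ = n - v (F5.L2, 0)
  h_van : ∀ j : Fin c₁, Z.h j ∈ van xH1 E' (Vw ℝ (wh (Crd n) (Pt n) W)
    (W * b ^ kap (i₀ + 1) (fun i => v (F5.H1, i)) (v (F5.F, 0) + j)))
  h'_van : ∀ j : Fin c₂, Z.h' j ∈ van xH2 E' (Vw ℝ (wh (Crd n) (Pt n) W)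
    (W * b ^ kap (i₀ + 1) (fun i => v (F5.H2, i)) (v (F5.F, 0) + j)))

/-- the constant of `zpack` for the density parameter -/
def qZ (n : ℕ) : ℕ :=
  16 * (NN n + 1) * (Fintype.card (Pt n) ^ Fintype.card (Pt n) + 1) * (16 + 1)

/-- the constant of `zpack` for the windows -/
def CZ (n : ℕ) : ℕ := NN n * NN n + NN n + 10

/-- **[ZPACK]** -/
theorem zpack {W k β C₁ L K₀ q C i₀ i₁ : ℕ} {E' : Finset (Ed n ℝ)} {v : F5 × ℕ → ℕ}
    (A : BData n W k β C₁ L K₀ q C i₀ i₁ E' v) (hC : CZ n ≤ C) (hq : qZ n ≤ q) :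
    ∃ (E1 E2 : Finset (Ed n ℝ)) (c₁ c₂ σ₁ σ₂ v₁ v₂ : ℕ)
      (Z : ZData ℝ n E' E1 E2 (wh (Crd n) (Pt n) W) (W * (β ^ L) ^ i₀) (v (F5.F, 0)) c₁ c₂ σ₁ σ₂),
      ZP3 W (β ^ L) i₀ E' v A.bF Z ∧ c₁ + v₁ = 2 * (n + 1) ∧ c₂ + v₂ = 2 * (n + 1) ∧
      4 * (E' \ E2).card ≤ E'.card := by
  classical
  have hCZ : CZ n = NN n * NN n + NN n + 10 := rfl
  have hqZ : qZ n = 16 * (NN n + 1) * (Fintype.card (Pt n) ^ Fintype.card (Pt n) + 1) * (16 + 1) :=
    rfl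
  have hC1 : 1 ≤ C := by omega
  have hNN : NN n = 6 * n + 5 := rfl
  have hcC : Fintype.card (Crd n) = 2 * n + 1 := by simp [Crd]; ring
  have hcP : Fintype.card (Pt n) = 2 * n + 2 := by simp [Pt]; ring
  have hgeo := A.geo
  have hlong := A.long
  have hi01 : i₀ + C ≤ i₁ := by
    have : i₀ ≤ C * i₀ := Nat.le_mul_of_pos_left _ (by omega)
    omega
  have hi1W : NN n * i₀ + C ≤ K₀ := by
    have h1 : NN n * i₀ ≤ C * i₁ := Nat.mul_le_mul (by omega) (by omega)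
    omega
  have hi1K : i₁ ≤ K₀ := A.i₁_le hC1
  have hi0K : i₀ ≤ K₀ := by omega
  have hb1 := A.hb
  have hβ1 := A.hβ1
  -- systems
  obtain ⟨hge1, hsys1⟩ := hat_sys (K := ℝ) (ρ := Pt n) (x := xH1) (p := fun _ => ()) A.unif A.ne
    hβ1 hb1 A.hW A.bF (fam_H1 (K := ℝ) W (β ^ L) K₀)
  obtain ⟨hge2, hsys2⟩ := hat_sys (K := ℝ) (ρ := Pt n) (x := xH2) (p := fun _ => ()) A.unif A.ne
    hβ1 hb1 A.hW A.bF (fam_H2 (K := ℝ) W (β ^ L) K₀)
  obtain ⟨c₁, hc₁⟩ : ∃ c₁, v (F5.F, 0) + c₁ = v (F5.H1, i₀) :=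
    ⟨v (F5.H1, i₀) - v (F5.F, 0), by have := hge1 i₀ hi0K; omega⟩
  obtain ⟨c₂, hc₂⟩ : ∃ c₂, v (F5.F, 0) + c₂ = v (F5.H2, i₀) :=
    ⟨v (F5.H2, i₀) - v (F5.F, 0), by have := hge2 i₀ hi0K; omega⟩
  obtain ⟨F1, hF1a, hF1b, hF1c, hF1d⟩ := hsys1 i₀ hi0K c₁ hc₁
  obtain ⟨F2, hF2a, hF2b, hF2c, hF2d⟩ := hsys2 i₀ hi0K c₂ hc₂
  have hfibE : ∀ s : Unit, fib (fun _ : Ed n ℝ => ()) E' s = E' := fun s => H307.fib_unit E' s
  let hh : Fin c₁ → MvPolynomial (Crd n ⊕ Pt n) ℝ := fun j => F1 () (Fin.natAdd _ j)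
  let hh' : Fin c₂ → MvPolynomial (Crd n ⊕ Pt n) ℝ := fun j => F2 () (Fin.natAdd _ j)
  have hhv : ∀ j : Fin c₁, hh j ∈ van xH1 E' (Vw ℝ (wh (Crd n) (Pt n) W)
      (W * (β ^ L) ^ kap (i₀ + 1) (fun i => v (F5.H1, i)) (v (F5.F, 0) + j))) := fun j => by
    have := hF1c () j
    rwa [hfibE] at this
  have hhv' : ∀ j : Fin c₂, hh' j ∈ van xH2 E' (Vw ℝ (wh (Crd n) (Pt n) W)
      (W * (β ^ L) ^ kap (i₀ + 1) (fun i => v (F5.H2, i)) (v (F5.F, 0) + j))) := fun j => by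
    have := hF2c () j
    rwa [hfibE] at this
  have happ1 : (Fin.append (fun i => rename Sum.inl (A.bF.f () i)) hh :
      Fin (v (F5.F, 0) + c₁) → MvPolynomial (Crd n ⊕ Pt n) ℝ) = F1 () := by
    funext j
    refine Fin.addCases (fun i => ?_) (fun i => ?_) j
    · rw [Fin.append_left, hF1a]
    · rw [Fin.append_right]
  have happ2 : (Fin.append (fun i => rename Sum.inl (A.bF.f () i)) hh' :
      Fin (v (F5.F, 0) + c₂) → MvPolynomial (Crd n ⊕ Pt n) ℝ) = F2 () := by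
    funext j
    refine Fin.addCases (fun i => ?_) (fun i => ?_) j
    · rw [Fin.append_left, hF2a]
    · rw [Fin.append_right]
  -- the edges with exact values
  set E1 := core (cW n ℝ W (β ^ L)) (JW K₀) v E' 1 with hE1
  have hE1sub : E1 ⊆ E' := core_subset _ _
  have hE1c : 16 * E'.card ≤ 16 * E1.card + E'.card := by
    refine A.unif.card_core' A.mono (Finset.Subset.refl _) 1 16 ?_ (by omega)
    refine le_trans ?_ A.par.hq
    have h1 : 1 ≤ K₀ * (L * k) := Nat.mul_pos (by omega) (Nat.mul_pos A.par.hL A.par.hk)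
    have h16 : 16 ≤ q := by
      refine le_trans ?_ hq
      have e1 : 1 ≤ (NN n + 1) * (Fintype.card (Pt n) ^ Fintype.card (Pt n) + 1) :=
        Nat.mul_pos (Nat.succ_pos _) (Nat.succ_pos _)
      calc 16 ≤ 272 * 1 := by norm_num
        _ ≤ 272 * ((NN n + 1) * (Fintype.card (Pt n) ^ Fintype.card (Pt n) + 1)) :=
            Nat.mul_le_mul_left _ e1
        _ = qZ n := by rw [hqZ]; ring
    exact Nat.mul_le_mul h16 (Nat.mul_le_mul_right _ h1)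
  have hE1d : E'.card ≤ 2 * E1.card := by omega
  -- exceptional sets of the hats
  obtain ⟨Y₁, hY₁E, hY₁c, hY₁⟩ := hat_pack (idxF := fun i => (F5.F, i))
    (idxH := fun i => (F5.H1, i)) (x := xH1) A.par A.unif A.ne A.mono
    (by omega) (by omega) (by omega) A.hW i₀ i₁ A.bF (fam_F (K := ℝ) W (β ^ L) K₀)
    (fam_H1 (K := ℝ) W (β ^ L) K₀) A.winF A.winH1 hi1K (by omega)
    (by rw [Nat.mul_comm]; omega) hc₁.symm hh hhv
    (by rw [happ1]; exact hF1d) hE1sub hE1d 16 hq hq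
  obtain ⟨Y₂, hY₂E, hY₂c, hY₂⟩ := hat_pack (idxF := fun i => (F5.F, i))
    (idxH := fun i => (F5.H2, i)) (x := xH2) A.par A.unif A.ne A.mono
    (by omega) (by omega) (by omega) A.hW i₀ i₁ A.bF (fam_F (K := ℝ) W (β ^ L) K₀)
    (fam_H2 (K := ℝ) W (β ^ L) K₀) A.winF A.winH2 hi1K (by omega)
    (by rw [Nat.mul_comm]; omega) hc₂.symm hh' hhv'
    (by rw [happ2]; exact hF2d) hE1sub hE1d 16 hq hq
  set E2 := E1 \ (Y₁ ∪ Y₂) with hE2
  have hE2card : 4 * (E' \ E2).card ≤ E'.card := by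
    have h1 : E' \ E2 ⊆ (E' \ E1) ∪ (Y₁ ∪ Y₂) := by
      intro e he
      obtain ⟨h1, h2⟩ := Finset.mem_sdiff.1 he
      rw [Finset.mem_union, Finset.mem_sdiff]
      by_cases h3 : e ∈ E1
      · refine Or.inr ?_
        by_contra h4
        exact h2 (Finset.mem_sdiff.2 ⟨h3, h4⟩)
      · exact Or.inl ⟨h1, h3⟩
    have h2 := Finset.card_le_card h1
    have h3 := Finset.card_union_le (E' \ E1) (Y₁ ∪ Y₂)
    have h4 := Finset.card_union_le Y₁ Y₂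
    have h5 : (E' \ E1).card = E'.card - E1.card := Finset.card_sdiff_of_subset hE1sub
    omega
  have hE2ne : E2.Nonempty := by
    rw [Finset.nonempty_iff_ne_empty]
    intro h0
    rw [h0, Finset.sdiff_empty] at hE2card
    have := A.ne.card_pos
    omega
  have hmem2 : ∀ e ∈ E2, e ∈ E1 ∧ e ∉ Y₁ ∧ e ∉ Y₂ := by
    intro e he
    obtain ⟨h1, h2⟩ := Finset.mem_sdiff.1 he
    rw [Finset.mem_union, not_or] at h2
    exact ⟨h1, h2⟩
  have hcard_le : ∀ (m : ℕ) (w : Fin m → Pt n → ℝ), LinearIndependent ℝ w → m ≤ 2 * (n + 1) := by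
    intro m w hw
    have h1 := hw.fintype_card_le_finrank
    rw [Fintype.card_fin, Module.finrank_fintype_fun_eq_card, hcP] at h1
    omega
  obtain ⟨e₂, he₂⟩ := hE2ne
  have hc₁le : c₁ ≤ 2 * (n + 1) :=
    hcard_le c₁ _ (hY₁ e₂ (hmem2 e₂ he₂).1 (hmem2 e₂ he₂).2.1).1
  have hc₂le : c₂ ≤ 2 * (n + 1) :=
    hcard_le c₂ _ (hY₂ e₂ (hmem2 e₂ he₂).1 (hmem2 e₂ he₂).2.2).1
  have hD1 : 1 ≤ (β ^ L) ^ i₀ := Nat.one_le_pow _ _ hb1.le
  have hWN : W ≤ W * (β ^ L) ^ i₀ := Nat.le_mul_of_pos_right _ hD1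
  have hlev : (2 * n + 2) * (W * (β ^ L) ^ i₀) + 2 * (W * (β ^ L) ^ i₀) ≤
      W * (β ^ L) ^ (i₀ + 1) := by
    have h1 := A.par.hβ
    have h2 := A.par.hk
    have h3 : NN n + 2 ≤ k * (NN n + 2) := Nat.le_mul_of_pos_left _ h2
    have h4 : β ≤ β ^ L := Nat.le_self_pow A.par.hL.ne' _
    calc (2 * n + 2) * (W * (β ^ L) ^ i₀) + 2 * (W * (β ^ L) ^ i₀)
        = (2 * n + 4) * (W * (β ^ L) ^ i₀) := by ring
      _ ≤ β ^ L * (W * (β ^ L) ^ i₀) := Nat.mul_le_mul_right _ (by omega)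
      _ = W * (β ^ L) ^ (i₀ + 1) := by rw [pow_succ]; ring
  have hmonH1 : ∀ k l : ℕ, k ≤ l → l < i₀ + 1 → v (F5.H1, k) ≤ v (F5.H1, l) :=
    fun k l hkl hl => A.monoH1 hkl (by omega)
  have hmonH2 : ∀ k l : ℕ, k ≤ l → l < i₀ + 1 → v (F5.H2, k) ≤ v (F5.H2, l) :=
    fun k l hkl hl => A.monoH2 hkl (by omega)
  have hx2 : ∀ e ∈ E', xH2 e = hatPt e.2 (mu e.2 e.1) := fun e he =>
    xH2_eq (A.adj e he).1 (A.adj e he).2
  have hleaf : ∀ {S : Type} (p : Ed n ℝ → S) (g : ℕ → F5 × ℕ),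
      IsFam (cW n ℝ W (β ^ L)) (JW K₀) g K₀ xL p (restrictTotalDegree (Fin n) ℝ) W (β ^ L) →
      v (g i₀) = v (g 0) → v (g 0) ≤ n → ∀ e ∈ E1,
      gfr xL p (restrictTotalDegree (Fin n) ℝ) (W * (β ^ L) ^ i₀) E' e + (n - v (g 0)) = n := by
    intro S p g hg hw hle e he
    have h1 := core_value he (g i₀) (hg i₀ hi0K).1
    rw [core_zero, (hg i₀ hi0K).2, hw] at h1
    omega
  have hL1le := A.vL1_le
  have hL2le := A.vL2_le
  have hFle := A.vF_le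
  have htight := A.tight
  let Z : ZData ℝ n E' E1 E2 (wh (Crd n) (Pt n) W) (W * (β ^ L) ^ i₀) (v (F5.F, 0)) c₁ c₂
      (n - v (F5.L1, 0)) (n - v (F5.L2, 0)) :=
    { adj := A.adj
      sub := hE1sub
      sub' := Finset.sdiff_subset
      wt_pos := fun x => le_rfl
      wt_le := fun x => (wh_le A.hW x).trans hWN
      leaf₁ := fun e he => leaf_annih (hleaf Prod.fst (fun i => (F5.L1, i))
        (fam_L1 (K := ℝ) W (β ^ L) K₀) (A.winL1 _ hi0K) hL1le e he)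
      leaf₂ := fun e he => leaf_annih (hleaf Prod.snd (fun i => (F5.L2, i))
        (fam_L2 (K := ℝ) W (β ^ L) K₀) (A.winL2 _ hi0K) hL2le e he)
      f := A.bF.f ()
      h := hh
      h' := hh'
      f_mem := fun j => by
        refine H580.Vw_mono _ (((A.bF.d_le j j.2)).trans hWN)
          (rename_mem_Vw_of_total _ Sum.inl (fun _ => rfl)
            ((mem_restrictTotalDegree _ _ _).2 (A.bF.deg () j)))
      h_mem := fun j => by
        refine H580.Vw_mono _ (Nat.mul_le_mul_left _ (Nat.pow_le_pow_right hb1.le ?_))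
          (mem_van.1 (hhv j)).1
        exact H580.kap_le_of_lt (i₀ + 1) (fun i => v (F5.H1, i)) hmonH1
          (v (F5.F, 0) + j) i₀ (by rw [← hc₁]; have := j.2; omega)
      h'_mem := fun j => by
        refine H580.Vw_mono _ (Nat.mul_le_mul_left _ (Nat.pow_le_pow_right hb1.le ?_))
          (mem_van.1 (hhv' j)).1
        exact H580.kap_le_of_lt (i₀ + 1) (fun i => v (F5.H2, i)) hmonH2
          (v (F5.F, 0) + j) i₀ (by rw [← hc₂]; have := j.2; omega)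
      f_zero := fun j e he => A.bF.zero e he j
      h_zero := fun j e he => (mem_van.1 (hhv j)).2 e he
      h'_zero := fun j e he => by
        rw [← hx2 e he]
        exact (mem_van.1 (hhv' j)).2 e he
      f_ind := fun e he => A.bF.ind e (hE1sub (hmem2 e he).1)
      h_ind := fun e he => (hY₁ e (hmem2 e he).1 (hmem2 e he).2.1).1
      h'_ind := fun e he => by
        rw [← hx2 e (hE1sub (hmem2 e he).1)]
        exact (hY₂ e (hmem2 e he).1 (hmem2 e he).2.2).1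
      good₁ := fun e he P hP hP0 =>
        (hY₁ e (hmem2 e he).1 (hmem2 e he).2.1).2 P (H580.Vw_mono _ hlev hP) hP0
      good₂ := fun e he P hP hP0 => by
        rw [← hx2 e (hE1sub (hmem2 e he).1)]
        refine (hY₂ e (hmem2 e he).1 (hmem2 e he).2.2).2 P (H580.Vw_mono _ hlev hP) ?_
        intro a ha
        rw [hx2 a (hE1sub ha)]
        exact hP0 a ha
      tight := by omega
      le₁ := by omega
      le₂ := by omega }
  exact ⟨E1, E2, c₁, c₂, n - v (F5.L1, 0), n - v (F5.L2, 0), 2 * (n + 1) - c₁,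
    2 * (n + 1) - c₂, Z, ⟨rfl, hc₁, hc₂, rfl, rfl, hhv, hhv'⟩, by omega, by omega, hE2card⟩

end Vale.Agent.P054.T3.H182
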