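import Vale.Agent.P054.T2.H701.GStarZD
import Vale.Agent.P054.T2.H269.GStarNum
import Vale.Agent.P054.T3.H182.ZPack

set_option autoImplicit false
set_option linter.all false

/-!
# P054 / T3, [G*] over the base scale
-/

open MvPolynomial Module Finset

namespace Vale.Agent.P054.T3.H182

open Vale.Agent.P054.T2
open Vale.Agent.P054.T2.H580 (Vw rkF wh kap Par wh_ne_zero)
open Vale.Agent.P054.T2.H930 (germ grad ZData edgePt hatPt Pt)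
open Vale.Agent.P054.T2.H686 (Crd mu meet)
open Vale.Agent.P054.T2.H307 (Ed NN xF xL xH1 xH2 van pts mem_van IsFam)

/-- the numbers of [G*] over the base scale -/
theorem star_num {b W i₀ i₁ N1 N2 c₀ c₁ c₂ u e₁ s S J rk Λ R P0 cs : ℕ} (hb : 1 ≤ b) (hW : 1 ≤ W)
    (hR : 1 ≤ R) (hu : c₂ + u = N2) (he : N1 + N2 - (c₀ + c₁) = e₁ + 1) (hc₀ : c₀ ≤ N1)
    (hs : s + i₁ * (e₁ + 1) = S)
    (hup : P0 * W ^ (N1 - c₀) ≤ b * R)
    (hlo : R * b ^ S ≤ Λ * rk)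
    (key : W ^ (N2 + N2) * (J * rk) ≤
      cs * ((P0 * (W ^ c₁ * b ^ s) * (W * b ^ i₀) ^ c₂) * W ^ u) * (W * b ^ i₁ + W) ^ (e₁ + 1)) :
    J ≤ cs * 2 ^ (e₁ + 1) * b ^ (i₀ * c₂ + 1) * Λ := by
  have hrk : 0 < rk := by
    rcases Nat.eq_zero_or_pos rk with h | h
    · rw [h, mul_zero] at hlo
      have := Nat.mul_pos hR (Nat.one_le_pow S b hb)
      omega
    · exact h
  have h1 : (W * b ^ i₁ + W) ^ (e₁ + 1) ≤ 2 ^ (e₁ + 1) * (W ^ (e₁ + 1) * b ^ (i₁ * (e₁ + 1))) := by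
    have h2 : W ≤ W * b ^ i₁ := Nat.le_mul_of_pos_right _ (Nat.one_le_pow _ _ hb)
    calc (W * b ^ i₁ + W) ^ (e₁ + 1) ≤ (2 * (W * b ^ i₁)) ^ (e₁ + 1) :=
          Nat.pow_le_pow_left (by omega) _
      _ = _ := by rw [mul_pow, mul_pow, ← pow_mul]
  have hexp : c₁ + c₂ + u + (e₁ + 1) = (N1 - c₀) + (N2 + N2) := by omega
  have hpos : 0 < W ^ (N2 + N2) := Nat.pow_pos hW
  have h2 : W ^ (N2 + N2) * (J * rk) ≤
      W ^ (N2 + N2) * (cs * 2 ^ (e₁ + 1) * b ^ (i₀ * c₂ + 1) * (R * b ^ S)) := by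
    refine key.trans ?_
    calc cs * ((P0 * (W ^ c₁ * b ^ s) * (W * b ^ i₀) ^ c₂) * W ^ u) * (W * b ^ i₁ + W) ^ (e₁ + 1)
        ≤ cs * ((P0 * (W ^ c₁ * b ^ s) * (W * b ^ i₀) ^ c₂) * W ^ u) *
            (2 ^ (e₁ + 1) * (W ^ (e₁ + 1) * b ^ (i₁ * (e₁ + 1)))) := Nat.mul_le_mul_left _ h1
      _ = cs * 2 ^ (e₁ + 1) * b ^ (i₀ * c₂) * (b ^ (s + i₁ * (e₁ + 1))) *
            (P0 * W ^ (c₁ + c₂ + u + (e₁ + 1))) := by
          rw [mul_pow, ← pow_mul, pow_add b s, pow_add W (c₁ + c₂ + u), pow_add W (c₁ + c₂),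
            pow_add W c₁]
          ring
      _ = cs * 2 ^ (e₁ + 1) * b ^ (i₀ * c₂) * b ^ S * W ^ (N2 + N2) *
            (P0 * W ^ (N1 - c₀)) := by
          rw [hs, hexp, pow_add W (N1 - c₀)]
          ring
      _ ≤ cs * 2 ^ (e₁ + 1) * b ^ (i₀ * c₂) * b ^ S * W ^ (N2 + N2) * (b * R) :=
          Nat.mul_le_mul_left _ hup
      _ = _ := by rw [pow_succ b (i₀ * c₂)]; ring
  have h3 : J * rk ≤ cs * 2 ^ (e₁ + 1) * b ^ (i₀ * c₂ + 1) * (R * b ^ S) :=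
    Nat.le_of_mul_le_mul_left h2 hpos
  have h4 : J * rk ≤ (cs * 2 ^ (e₁ + 1) * b ^ (i₀ * c₂ + 1) * Λ) * rk := by
    refine h3.trans ?_
    rw [mul_assoc _ Λ rk]
    exact Nat.mul_le_mul_left _ hlo
  exact Nat.le_of_mul_le_mul_right h4 hrk

/-- the exponents of the hat -/
theorem star_exp (N i₀ i₁ c m : ℕ) (v' : ℕ → ℕ)
    (hv' : ∀ k l : ℕ, k ≤ l → l ≤ i₀ → v' k ≤ v' l)
    (hconst : ∀ i, i₀ ≤ i → i < i₁ → v' i = v' i₀) (hi : i₀ ≤ i₁)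
    (hm : v' i₀ = c + m) (hge : ∀ i ≤ i₀, c ≤ v' i) (hmN : c + m ≤ N) :
    (∑ j ∈ range m, kap (i₀ + 1) v' (c + j)) + i₁ * (N - (c + m)) =
      ∑ i ∈ range i₁, (N - v' i) := by
  have h3 := H580.sum_kap_window N (i₀ + 1) i₁ v' (by omega)
    (fun k l hkl hl => hv' k l hkl (by omega)) (by simpa [hm] using hmN)
    (fun k h1 h2 => by simpa using hconst k (by simpa using h1) h2)
  simp only [Nat.add_sub_cancel, hm] at h3
  rw [Finset.sum_range_add] at h3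
  have h4 : ∑ j ∈ range c, kap (i₀ + 1) v' j = 0 := by
    refine Finset.sum_eq_zero fun j hj => ?_
    refine H580.kap_eq_zero _ _ _ fun k hk => ?_
    have h5 := hge k (by omega)
    have h6 := Finset.mem_range.1 hj
    omega
  rw [h4, zero_add] at h3
  exact h3

variable {n : ℕ}

theorem card_Crd' (n : ℕ) : Fintype.card (Crd n) = 2 * n + 1 := by simp [Crd]; ring
theorem card_Pt' (n : ℕ) : Fintype.card (Pt n) = 2 * n + 2 := by simp [Pt]; ring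

/-- the constant of [G*] for the windows -/
def CG (n : ℕ) : ℕ := NN n * NN n + 2 * n + 10

/-- from the raw inequality of [G*] to the conclusion -/
theorem star_close {W k β C₁ L K₀ q C i₀ i₁ : ℕ} {E' : Finset (Ed n ℝ)} {v : F5 × ℕ → ℕ}
    (A : BData n W k β C₁ L K₀ q C i₀ i₁ E' v)
    (hC : CG n ≤ C) (hq : 128 ≤ q) (hβ : H269.Cg (NN n) ≤ β)
    {g : ℕ → F5 × ℕ} {x : Ed n ℝ → Crd n ⊕ Pt n → ℝ} (hx : ∀ e, x e ∘ Sum.inl = xF e)
    (hFH : IsFam (cW n ℝ W (β ^ L)) (JW K₀) g K₀ x (fun _ => ())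
      (Vw ℝ (wh (Crd n) (Pt n) W)) W (β ^ L))
    (hwin : ∀ i, i₀ ≤ i → i ≤ i₁ → v (g i) = v (g i₀))
    {c₁ c₂ u e₁ : ℕ} (hc₁ : v (F5.F, 0) + c₁ = v (g i₀))
    (hu : c₂ + u = Fintype.card (Pt n))
    (he : Fintype.card (Crd n) + Fintype.card (Pt n) - (v (F5.F, 0) + c₁) = e₁ + 1)
    (Bd : Finset (Ed n ℝ)) (hB : Bd ⊆ E')
    [DecidableEq (Crd n ⊕ Pt n → ℝ)]
    (key : (W ^ (Fintype.card (Pt n) + Fintype.card (Pt n))) *
      ((β ^ L) ^ (i₁ - 1) * rkF (Vw ℝ (wh (Crd n) (Pt n) W))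
        (Bd.image x) (W * (β ^ L) ^ i₁)) ≤
      H701.CS e₁ u (Fintype.card (Crd n) + Fintype.card (Pt n) + Fintype.card (Pt n)) *
        (((∏ j ∈ Finset.range (v (F5.F, 0)), A.bF.d j) *
          (∏ j ∈ Finset.range c₁,
            W * (β ^ L) ^ kap (i₀ + 1) (fun i => v (g i)) (v (F5.F, 0) + j)) *
          ∏ j ∈ Finset.range c₂, W * (β ^ L) ^ i₀) * W ^ u) *
        (W * (β ^ L) ^ i₁ + W) ^ (e₁ + 1)) :
    64 * Bd.card ≤ E'.card := by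
  classical
  have hCG : CG n = NN n * NN n + 2 * n + 10 := rfl
  by_contra hcon
  push Not at hcon
  have hC1 : 1 ≤ C := by omega
  have hb1 := A.hb
  have hi : i₀ ≤ i₁ := A.i₀_le hC1
  have hi₁ : i₁ ≤ K₀ := A.i₁_le hC1
  have hxe : (fun e => x e ∘ Sum.inl) = xF := funext hx
  have hN2 : Fintype.card (Crd n) + Fintype.card (Pt n) ≤ NN n := by
    rw [card_Crd', card_Pt']; unfold NN; omega
  obtain ⟨D, hDd, hDR⟩ : ∃ D : Base (K := ℝ) (fun e => x e ∘ Sum.inl) (fun _ : Ed n ℝ => ()) E' W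
      (β ^ L) q (v (F5.F, 0)), D.d = A.bF.d ∧ D.R = A.bF.R := by
    rw [hxe]
    exact ⟨A.bF, rfl, rfl⟩
  obtain ⟨e, -, hlo⟩ := hat_lower_u A.par A.unif A.mono hN2 A.hW D
    (fun j hj => hFH j (hj.trans hi₁)) hi₁ hB (r := 64) (by omega) (by omega) hcon
  have hfib : H307.fib (fun _ : Ed n ℝ => ()) Bd ((fun _ : Ed n ℝ => ()) e) = Bd :=
    H307.fib_unit Bd ()
  have hpts : pts x Bd = Bd.image x := by
    rw [H580.pts_eq]
  rw [hfib, hpts, hDR] at hlo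
  have hge0 := (hat_sys A.unif A.ne A.hβ1 hb1 A.hW D hFH).1
  have hVH := H580.isFilt_Vw (k := ℝ) (wh (Crd n) (Pt n) W) (wh_ne_zero A.hW)
  have hexp := star_exp (Fintype.card (Crd n) + Fintype.card (Pt n)) i₀ i₁ (v (F5.F, 0)) c₁
    (fun i => v (g i))
    (fun k l hkl hl => A.unif.fam_mono A.ne A.hβ1 hVH.mono hb1.le
      hFH hkl (hl.trans (hi.trans hi₁)))
    (fun i h1 h2 => hwin i h1 h2.le) hi hc₁.symm
    (fun i h1 => hge0 i (h1.trans (hi.trans hi₁))) (by omega)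
  rw [he] at hexp
  have hprod1 : (∏ j ∈ Finset.range c₁,
      W * (β ^ L) ^ kap (i₀ + 1) (fun i => v (g i)) (v (F5.F, 0) + j)) =
      W ^ c₁ * (β ^ L) ^ (∑ j ∈ range c₁, kap (i₀ + 1) (fun i => v (g i)) (v (F5.F, 0) + j)) := by
    rw [Finset.prod_mul_distrib, Finset.prod_const, Finset.card_range,
      Finset.prod_pow_eq_pow_sum]
  have hprod2 : (∏ j ∈ Finset.range c₂, W * (β ^ L) ^ i₀) = (W * (β ^ L) ^ i₀) ^ c₂ := by
    rw [Finset.prod_const, Finset.card_range]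
  rw [hprod1, hprod2] at key
  have h1 := star_num hb1.le A.hW A.bF.R_pos hu he A.bF.c_le hexp A.bF.up hlo key
  -- the constants
  have hCS : H701.CS e₁ u (Fintype.card (Crd n) + Fintype.card (Pt n) + Fintype.card (Pt n)) *
      2 ^ (e₁ + 1) ≤ β ^ L := by
    refine (H269.CS_le (by omega)).trans ?_
    have h2 : Fintype.card (Crd n) + Fintype.card (Pt n) + Fintype.card (Pt n) = NN n := by
      rw [card_Crd', card_Pt']; unfold NN; omega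
    rw [h2]
    exact hβ.trans (Nat.le_self_pow A.par.hL.ne' _)
  have hloss := A.par.loss (M₁ := 0) (M₂ := 0)
      (M₃ := Fintype.card (Crd n) + Fintype.card (Pt n)) (K₁ := 0) (Nat.zero_le _)
      (Nat.zero_le _) hN2 (Nat.zero_le _) hi₁
  rw [pow_zero, pow_zero, one_mul, one_mul] at hloss
  have hM2 : (Fintype.card (Crd n) + Fintype.card (Pt n)) *
      (Fintype.card (Crd n) + Fintype.card (Pt n)) ≤ NN n * NN n := Nat.mul_le_mul hN2 hN2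
  set X₂ := ((C₁ ^ (Fintype.card (Crd n) + Fintype.card (Pt n)) *
          (Fintype.card (Crd n) + Fintype.card (Pt n)).factorial) ^ L) ^ i₁ with hX₂
  set M₂ := (Fintype.card (Crd n) + Fintype.card (Pt n)) *
      (Fintype.card (Crd n) + Fintype.card (Pt n)) with hM₂
  have hlen : i₀ * c₂ + M₂ + 4 < i₁ - 1 := by
    have h3 := A.geo
    have h4 : c₂ ≤ C := by
      rw [card_Pt'] at hu
      omega
    have h5 : i₀ * c₂ ≤ C * i₀ := by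
      rw [mul_comm]
      exact Nat.mul_le_mul_right _ h4
    omega
  have h6 : (β ^ L) ^ (i₁ - 1) ≤ (β ^ L) ^ (i₀ * c₂ + M₂ + 4) := by
    refine h1.trans ?_
    calc H701.CS e₁ u (Fintype.card (Crd n) + Fintype.card (Pt n) + Fintype.card (Pt n)) *
          2 ^ (e₁ + 1) * (β ^ L) ^ (i₀ * c₂ + 1) * (β ^ L * (X₂ * (β ^ L) ^ M₂))
        ≤ β ^ L * (β ^ L) ^ (i₀ * c₂ + 1) * (β ^ L * (X₂ * (β ^ L) ^ M₂)) :=
          Nat.mul_le_mul_right _ (Nat.mul_le_mul_right _ hCS)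
      _ ≤ β ^ L * (β ^ L) ^ (i₀ * c₂ + 1) * (β ^ L * (β ^ L * (β ^ L) ^ M₂)) :=
          Nat.mul_le_mul_left _ (Nat.mul_le_mul_left _ (Nat.mul_le_mul_right _ hloss))
      _ = _ := by rw [pow_add, pow_add, pow_add]; ring
  have h7 : (β ^ L) ^ (i₀ * c₂ + M₂ + 4) < (β ^ L) ^ (i₁ - 1) :=
    Nat.pow_lt_pow_right hb1 hlen
  omega

/-- **[G*]** over the base scale -/
theorem gstar {W k β C₁ L K₀ q C i₀ i₁ : ℕ} {E' : Finset (Ed n ℝ)} {v : F5 × ℕ → ℕ}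
    (A : BData n W k β C₁ L K₀ q C i₀ i₁ E' v)
    (hC : CG n ≤ C) (hq : 128 ≤ q) (hβ : H269.Cg (NN n) ≤ β)
    {E1 E2 : Finset (Ed n ℝ)} {c₁ c₂ σ₁ σ₂ v₁ v₂ : ℕ}
    (Z : ZData ℝ n E' E1 E2 (wh (Crd n) (Pt n) W) (W * (β ^ L) ^ i₀) (v (F5.F, 0)) c₁ c₂ σ₁ σ₂)
    (hZ : ZP3 W (β ^ L) i₀ E' v A.bF Z) (hv₁ : c₁ + v₁ = 2 * (n + 1))
    (hv₂ : c₂ + v₂ = 2 * (n + 1)) :
    (∀ Bd ⊆ E2, (∀ e ∈ Bd, ∃ φ ∈ Vw ℝ (wh (Crd n) (Pt n) W) (2 * W),
      (∀ e' ∈ Bd, germ (edgePt e'.1 e'.2) Z.F = germ (edgePt e.1 e.2) Z.F →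
        eval (xH1 e') φ = 0) ∧
      rename (H930.j1 n) φ ∉ germ (edgePt e.1 e.2) Z.F) → 64 * Bd.card ≤ E'.card) ∧
    (∀ Bd ⊆ E2, (∀ e ∈ Bd, ∃ φ ∈ Vw ℝ (wh (Crd n) (Pt n) W) (2 * W),
      (∀ e' ∈ Bd, germ (edgePt e'.1 e'.2) Z.F = germ (edgePt e.1 e.2) Z.F →
        eval (xH2 e') φ = 0) ∧
      rename (H930.j2 n) φ ∉ germ (edgePt e.1 e.2) Z.F) → 64 * Bd.card ≤ E'.card) := by
  classical
  have hCG : CG n = NN n * NN n + 2 * n + 10 := rfl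
  have hC1 : 1 ≤ C := by omega
  have hb1 := A.hb
  have hi : i₀ ≤ i₁ := A.i₀_le hC1
  have hgeo := A.geo
  have htight := A.tight
  have hp1 := A.pos1
  have hp2 := A.pos2
  have hW := A.hW
  have hsub : E2 ⊆ E' := fun e he => Z.mem0 he
  have hjT : (β ^ L) ^ (i₁ - 1) * (2 * W) ≤ W * (β ^ L) ^ i₁ + W := by
    have h1 : W * (β ^ L) ^ i₁ = (β ^ L) ^ (i₁ - 1) * (β ^ L * W) := by
      obtain ⟨j, hj⟩ : ∃ j, i₁ = j + 1 := ⟨i₁ - 1, by omega⟩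
      subst hj
      simp only [Nat.add_sub_cancel]
      rw [pow_succ]; ring
    rw [h1]
    exact (Nat.mul_le_mul_left _ (Nat.mul_le_mul_right _ hb1)).trans (Nat.le_add_right _ _)
  have hfd : ∀ i : Fin (v (F5.F, 0)), Z.f i ∈ restrictTotalDegree (Crd n) ℝ (A.bF.d i) :=
    fun i => by rw [hZ.hf]; exact (mem_restrictTotalDegree _ _ _).2 (A.bF.deg () i)
  have hpow1 : ∀ i, 1 ≤ W * (β ^ L) ^ i := fun i => Nat.mul_pos hW (Nat.one_le_pow _ _ hb1.le)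
  refine ⟨fun Bd hBE hBd => ?_, fun Bd hBE hBd => ?_⟩
  · have hu : c₂ + v₂ = Fintype.card (Pt n) := by rw [card_Pt']; omega
    obtain ⟨e₁, he⟩ : ∃ e₁, Fintype.card (Crd n) + Fintype.card (Pt n) - (v (F5.F, 0) + c₁) =
        e₁ + 1 := by
      rw [card_Crd', card_Pt']
      exact ⟨2 * n + 1 + (2 * n + 2) - (v (F5.F, 0) + c₁) - 1, by omega⟩
    have key := H701.zgstar1 (k := ℝ) (W := W) Z hW A.bF.d
      (fun j => W * (β ^ L) ^ kap (i₀ + 1) (fun i => v (F5.H1, i)) (v (F5.F, 0) + j))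
      (fun _ => W * (β ^ L) ^ i₀)
      A.bF.d_pos (fun _ _ => hpow1 _) (fun _ _ => hpow1 _) hfd
      (fun i => (hZ.h_van i).1) Z.h'_mem hu he
      (T := 2 * W) Bd hBE hBd (T' := W * (β ^ L) ^ i₁) hjT
    exact star_close A hC hq hβ (x := xH1) (fun _ => rfl) (fam_H1 (K := ℝ) W (β ^ L) K₀) A.winH1
      hZ.hH1 hu he Bd (hBE.trans hsub) key
  · have hu : c₁ + v₁ = Fintype.card (Pt n) := by rw [card_Pt']; omega
    obtain ⟨e₁, he⟩ : ∃ e₁, Fintype.card (Crd n) + Fintype.card (Pt n) - (v (F5.F, 0) + c₂) =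
        e₁ + 1 := by
      rw [card_Crd', card_Pt']
      exact ⟨2 * n + 1 + (2 * n + 2) - (v (F5.F, 0) + c₂) - 1, by omega⟩
    have hpt : ∀ e ∈ Bd, hatPt e.2 (mu e.2 e.1) = xH2 e := by
      intro e he'
      have h3 := A.adj e (hsub (hBE he'))
      exact (xH2_eq h3.1 h3.2).symm
    have key := H701.zgstar2 (k := ℝ) (W := W) Z hW A.bF.d
      (fun _ => W * (β ^ L) ^ i₀)
      (fun j => W * (β ^ L) ^ kap (i₀ + 1) (fun i => v (F5.H2, i)) (v (F5.F, 0) + j))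
      A.bF.d_pos (fun _ _ => hpow1 _) (fun _ _ => hpow1 _) hfd Z.h_mem
      (fun i => (hZ.h'_van i).1) hu he
      (T := 2 * W) Bd hBE (fun e he' => by
        obtain ⟨φ, h4, h5, h6⟩ := hBd e he'
        exact ⟨φ, h4, fun e' he'' hcl => by rw [hpt e' he'']; exact h5 e' he'' hcl, h6⟩)
      (T' := W * (β ^ L) ^ i₁) hjT
    have himg : (Bd.image fun e => hatPt e.2 (mu e.2 e.1)) = Bd.image xH2 :=
      Finset.image_congr fun e he' => hpt e he'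
    rw [himg] at key
    exact star_close A hC hq hβ (x := xH2) (fun _ => rfl) (fam_H2 (K := ℝ) W (β ^ L) K₀) A.winH2
      hZ.hH2 hu he Bd (hBE.trans hsub) key

end Vale.Agent.P054.T3.H182
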