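import Vale.Agent.P054.T3.H182.ZPack

set_option autoImplicit false
set_option linter.all false

/-!
# P054 / T3, [LEAF] over the base scale
-/

open MvPolynomial Module Finset

namespace Vale.Agent.P054.T3.H182

open Vale.Agent.P054.T2
open Vale.Agent.P054.T2.H580 (Vw wh Par kap)
open Vale.Agent.P054.T2.H307 (van pts mem_van IsUnif IsFam gfr fib mem_fib Ed ZK NN xF xL xH1 xH2)
open Vale.Agent.P054.T2.H686 (mu meet Qf Crd)
open Vale.Agent.P054.T2.H930 (ZData germ grad Pt edgePt hatPt)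

variable {n : ℕ}

/-- the leaf systems in the letters of section C (`Fin (n - σ)`) -/
theorem leaf_sys {W Λ q c σ : ℕ} {E' : Finset (Ed n ℝ)} {p : Ed n ℝ → ZK n ℝ}
    (D : Base (K := ℝ) xL p E' W Λ q c) (hσ : c + σ = n) :
    ∃ f : ZK n ℝ → Fin (n - σ) → MvPolynomial (Fin n) ℝ,
      (∀ s i, (f s i).totalDegree ≤ D.d i) ∧
      (∀ e ∈ E', ∀ i, eval (mu e.1 e.2) (f (p e) i) = 0) ∧
      (∀ e ∈ E', LinearIndependent ℝ (fun i => grad (mu e.1 e.2) (f (p e) i))) ∧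
      ∀ (e : Ed n ℝ) s, germ (mu e.1 e.2) (f s) = germ (mu e.1 e.2) (D.f s) := by
  obtain rfl : c = n - σ := by omega
  exact ⟨D.f, fun s i => D.deg s i, fun e he i => D.zero e he i, fun e he => D.ind e he,
    fun e s => rfl⟩

/-- **[LEAF]**, leaves of the first end points: GOOD outside of a small set -/
theorem leaf_good₁ {W k β C₁ L K₀ q C i₀ i₁ : ℕ} {E' : Finset (Ed n ℝ)} {v : F5 × ℕ → ℕ}
    (A : BData n W k β C₁ L K₀ q C i₀ i₁ E' v) (hC : 4 ≤ C) (hq : 128 ≤ q) :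
    ∃ Y ⊆ E', 64 * Y.card ≤ E'.card ∧ ∀ e ∈ E', e ∉ Y → ∀ G : MvPolynomial (Fin n) ℝ,
      G.totalDegree ≤ W * (β ^ L) ^ i₀ →
      (∀ e' ∈ E', e'.1 = e.1 → eval (mu e'.1 e'.2) G = 0) →
      G ∈ germ (mu e.1 e.2) (A.b1.f e.1) := by
  classical
  have hi : i₀ + 4 ≤ K₀ := by
    have h1 := A.geo
    have h2 := A.long
    have h3 : i₀ ≤ C * i₀ := Nat.le_mul_of_pos_left _ (by omega)
    have h4 : i₁ ≤ C * i₁ := Nat.le_mul_of_pos_left _ (by omega)
    omega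
  have hn : Fintype.card (Fin n) ≤ NN n := by rw [Fintype.card_fin]; unfold NN; omega
  refine ⟨E'.filter fun e => ∃ F : MvPolynomial (Fin n) ℝ, F.totalDegree ≤ W * (β ^ L) ^ i₀ ∧
    (∀ a ∈ E', a.1 = e.1 → eval (xL a) F = 0) ∧ F ∉ germ (xL e) (A.b1.f e.1),
    Finset.filter_subset _ _, ?_, ?_⟩
  · exact A.b1.good A.par A.unif A.ne A.mono hn A.hW le_rfl (fam_L1 (K := ℝ) W (β ^ L) K₀)
      A.winL1 (Finset.Subset.refl _) (r := 1) (β' := 64) (by omega) (by omega) (by omega) i₀ hi _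
      (Finset.filter_subset _ _) (fun e he => (Finset.mem_filter.1 he).2)
  · intro e he hY G hG h0
    by_contra hcon
    exact hY (Finset.mem_filter.2 ⟨he, G, hG, h0, hcon⟩)

/-- **[LEAF]**, leaves of the second end points -/
theorem leaf_good₂ {W k β C₁ L K₀ q C i₀ i₁ : ℕ} {E' : Finset (Ed n ℝ)} {v : F5 × ℕ → ℕ}
    (A : BData n W k β C₁ L K₀ q C i₀ i₁ E' v) (hC : 4 ≤ C) (hq : 128 ≤ q) :
    ∃ Y ⊆ E', 64 * Y.card ≤ E'.card ∧ ∀ e ∈ E', e ∉ Y → ∀ G : MvPolynomial (Fin n) ℝ,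
      G.totalDegree ≤ W * (β ^ L) ^ i₀ →
      (∀ e' ∈ E', e'.2 = e.2 → eval (mu e'.1 e'.2) G = 0) →
      G ∈ germ (mu e.1 e.2) (A.b2.f e.2) := by
  classical
  have hi : i₀ + 4 ≤ K₀ := by
    have h1 := A.geo
    have h2 := A.long
    have h3 : i₀ ≤ C * i₀ := Nat.le_mul_of_pos_left _ (by omega)
    have h4 : i₁ ≤ C * i₁ := Nat.le_mul_of_pos_left _ (by omega)
    omega
  have hn : Fintype.card (Fin n) ≤ NN n := by rw [Fintype.card_fin]; unfold NN; omega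
  refine ⟨E'.filter fun e => ∃ F : MvPolynomial (Fin n) ℝ, F.totalDegree ≤ W * (β ^ L) ^ i₀ ∧
    (∀ a ∈ E', a.2 = e.2 → eval (xL a) F = 0) ∧ F ∉ germ (xL e) (A.b2.f e.2),
    Finset.filter_subset _ _, ?_, ?_⟩
  · exact A.b2.good A.par A.unif A.ne A.mono hn A.hW le_rfl (fam_L2 (K := ℝ) W (β ^ L) K₀)
      A.winL2 (Finset.Subset.refl _) (r := 1) (β' := 64) (by omega) (by omega) (by omega) i₀ hi _
      (Finset.filter_subset _ _) (fun e he => (Finset.mem_filter.1 he).2)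
  · intro e he hY G hG h0
    by_contra hcon
    exact hY (Finset.mem_filter.2 ⟨he, G, hG, h0, hcon⟩)

end Vale.Agent.P054.T3.H182
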