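import Vale.Agent.P054.T3.H182.SecBCore

set_option autoImplicit false
set_option linter.all false

/-!
# P054 / T3, section B over the base scale: the final theorem
-/

namespace Vale.Agent.P054.T3.H182

open MvPolynomial Finset Module
open Vale.Agent.P054.T2
open Vale.Agent.P054.T2.SecC
open Vale.Agent.P054.T2.H686 (mu meet Qf Bf Crd E Ez Gm IsoB dists zt)
open Vale.Agent.P054.T2.H580 (Vw Vw_mono kap wh)
open Vale.Agent.P054.T2.H930 (germ grad Pt edgePt hatPt ZData germ_le_comap)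
open Vale.Agent.P054.T2.H307 (Ed xF xL xH1 xH2 wB van NN)

variable {n : ℕ}

/-- the constants of section B -/
def CB (n : ℕ) : ℕ := CZ n + CG n + 4

def qB (n : ℕ) : ℕ := qZ n + 128

theorem CZ_le_CB (n : ℕ) : CZ n ≤ CB n :=
  (Nat.le_add_right _ _).trans (Nat.le_add_right _ _)

theorem CG_le_CB (n : ℕ) : CG n ≤ CB n :=
  (Nat.le_add_left _ _).trans (Nat.le_add_right _ _)

theorem four_le_CB (n : ℕ) : 4 ≤ CB n := Nat.le_add_left _ _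

theorem qZ_le_qB (n : ℕ) : qZ n ≤ qB n := Nat.le_add_right _ _

theorem le_qB (n : ℕ) : 128 ≤ qB n := Nat.le_add_left _ _

/-- the last step of section B -/
theorem secB_fin {W k β C₁ L K₀ q C i₀ i₁ : ℕ} {E' : Finset (ZZ n × ZZ n)} {v : F5 × ℕ → ℕ}
    (AD : BData n W k β C₁ L K₀ q C i₀ i₁ E' v)
    (hC : CG n ≤ C) (hC4 : 4 ≤ C) (hq : 128 ≤ q) (hβ : H269.Cg (NN n) ≤ β)
    {E1 E2 : Finset (Ed n ℝ)} {c₁ c₂ σ₁ σ₂ v₁ v₂ : ℕ}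
    (Z : ZData ℝ n E' E1 E2 (wh (Crd n) (Pt n) W) (W * (β ^ L) ^ i₀) (v (F5.F, 0)) c₁ c₂ σ₁ σ₂)
    (hZP : ZP3 W (β ^ L) i₀ E' v AD.bF Z) (hc₁ : c₁ + v₁ = 2 * (n + 1))
    (hc₂ : c₂ + v₂ = 2 * (n + 1)) (hE2 : 4 * (E' \ E2).card ≤ E'.card)
    {P : Finset (E n)} {B : E n ≃ₗᵢ[ℝ] E n} {θ : ℕ} (hB : Gm P B) (hE'E : E' ⊆ Ez P B θ) :
    ∃ O : BOut n W ((β ^ L) ^ i₀) (v (F5.F, 0)) σ₁ σ₂ E' P B
      AD.bF.d AD.b1.d AD.b2.d, True := by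
  classical
  have hb1 := AD.hb
  have hW := AD.hW
  obtain ⟨Y₁, hY₁, hY₁c, hg₁⟩ := leaf_good₁ AD hC4 hq
  obtain ⟨Y₂, hY₂, hY₂c, hg₂⟩ := leaf_good₂ AD hC4 hq
  obtain ⟨hG₁, hG₂⟩ := gstar AD hC hq hβ Z hZP hc₁ hc₂
  have hσ₁ := hZP.hσ₁
  have hσ₂ := hZP.hσ₂
  have htt := AD.tight
  have hp1 := AD.pos1
  have hp2 := AD.pos2
  have hvF := AD.vF_le
  obtain ⟨f₁, a1, a2, a3, a4⟩ := leaf_sys AD.b1 (σ := σ₁) (by omega)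
  obtain ⟨f₂, b1, b2, b3, b4⟩ := leaf_sys AD.b2 (σ := σ₂) (by omega)
  have hD : 1 ≤ (β ^ L) ^ i₀ := Nat.one_le_pow _ _ hb1.le
  have hσ₁n : σ₁ ≤ n := by omega
  have hσ₂n : σ₂ ≤ n := by omega
  have hσ₁1 : 1 ≤ σ₁ := by omega
  have hσ₂1 : 1 ≤ σ₂ := by omega
  have hc₀ : v (F5.F, 0) + (σ₁ + σ₂) = 2 * n + 1 := by omega
  -- degrees of the leaf systems
  have hf₁W : ∀ s i, (f₁ s i).totalDegree ≤ W := fun s i =>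
    (a1 s i).trans (AD.b1.d_le _ (by have := i.2; omega))
  have hf₂W : ∀ s i, (f₂ s i).totalDegree ≤ W := fun s i =>
    (b1 s i).trans (AD.b2.d_le _ (by have := i.2; omega))
  have hg₁' : ∀ e ∈ E', e ∉ Y₁ → ∀ G : MvPolynomial (Fin n) ℝ,
      G.totalDegree ≤ W * (β ^ L) ^ i₀ →
      (∀ e' ∈ E', e'.1 = e.1 → eval (mu e'.1 e'.2) G = 0) → G ∈ germ (mu e.1 e.2) (f₁ e.1) := by
    intro e he hY G hG h0
    rw [a4]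
    exact hg₁ e he hY G hG h0
  have hg₂' : ∀ e ∈ E', e ∉ Y₂ → ∀ G : MvPolynomial (Fin n) ℝ,
      G.totalDegree ≤ W * (β ^ L) ^ i₀ →
      (∀ e' ∈ E', e'.2 = e.2 → eval (mu e'.1 e'.2) G = 0) → G ∈ germ (mu e.1 e.2) (f₂ e.2) := by
    intro e he hY G hG h0
    rw [b4]
    exact hg₂ e he hY G hG h0
  have hfd : ∀ i, (Z.f i).totalDegree ≤ AD.bF.d i := fun i => by
    rw [hZP.hf]; exact AD.bF.deg () i
  exact secB_core (W := W) (D := (β ^ L) ^ i₀) (θ := θ) hW hD Z AD.bF.d AD.b1.d AD.b2.d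
    hfd hc₀ hσ₁n hσ₁1 hσ₂n hσ₂1 hc₁ hc₂ hE2
    f₁ a1 hf₁W a2 a3 hY₁c hg₁' f₂ b1 hf₂W b2 b3 hY₂c hg₂' hB hE'E hG₁ hG₂

/-- **SECTION B over the base scale.** -/
theorem secB {W k β C₁ L K₀ q C i₀ i₁ : ℕ} {E' : Finset (ZZ n × ZZ n)} {v : F5 × ℕ → ℕ}
    (AD : BData n W k β C₁ L K₀ q C i₀ i₁ E' v)
    (hC : CB n ≤ C) (hq : qB n ≤ q) (hβ : H269.Cg (NN n) ≤ β)
    {P : Finset (E n)} {B : E n ≃ₗᵢ[ℝ] E n} {θ : ℕ} (hB : Gm P B) (hE'E : E' ⊆ Ez P B θ) :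
    ∃ O : BOut n W ((β ^ L) ^ i₀) (v (F5.F, 0)) (n - v (F5.L1, 0)) (n - v (F5.L2, 0)) E' P B
      AD.bF.d AD.b1.d AD.b2.d, True := by
  obtain ⟨E1, E2, c₁, c₂, σ₁, σ₂, v₁, v₂, Z, hZP, hc₁, hc₂, hE2⟩ :=
    zpack AD ((CZ_le_CB n).trans hC) ((qZ_le_qB n).trans hq)
  obtain ⟨O, -⟩ := secB_fin AD ((CG_le_CB n).trans hC) ((four_le_CB n).trans hC)
    ((le_qB n).trans hq) hβ Z hZP hc₁ hc₂ hE2 hB hE'E
  have h1 := hZP.hσ₁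
  have h2 := hZP.hσ₂
  subst h1
  subst h2
  exact ⟨O, trivial⟩

end Vale.Agent.P054.T3.H182
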