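import Vale.Agent.P054.T2.H163.SecB
import Vale.Agent.P054.T2.H455.SAD4
import Vale.Agent.P054.T3.H182.Leaf
import Vale.Agent.P054.T3.H182.GStar

set_option autoImplicit false
set_option linter.all false

/-!
# P054 / T3, section B over the base scale: `BOut` from `BData`

`BOut` = the good edges `A ⊆ E'` (`|E'| ≤ 2 |A|`), `Z⁺` and the two sides over `A`, with everything
that is known at every edge of `A` (classes, stability, containments, [Ste], tangent data), and the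
bounds of the degrees `dF`, `d1`, `d2`.  No vertical theorem is used (any `n ≥ 1`).
-/

namespace Vale.Agent.P054.T3.H182

open MvPolynomial Finset Module
open Vale.Agent.P054.T2
open Vale.Agent.P054.T2.SecC
open Vale.Agent.P054.T2.H686 (mu meet Qf Bf Crd E Ez Gm IsoB dists zt)
open Vale.Agent.P054.T2.H580 (Vw Vw_mono kap wh)
open Vale.Agent.P054.T2.H930 (germ grad Pt edgePt hatPt ZData germ_le_comap)
open Vale.Agent.P054.T2.H192 (Iso thS thR hpt eval_thS)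
open Vale.Agent.P054.T2.H94 (LeafData side₁ side₂ restrictZ pullh)
open Vale.Agent.P054.T2.H588 (mat kP)
open Vale.Agent.P054.T2.H441 (chg cD)
open Vale.Agent.P054.T2.H307 (Ed xF xL xH1 xH2 wB van NN)
open Vale.Agent.P054.T2.H163 (StabP card_good u_mem)

variable {n : ℕ}

/-- **output of section B.** -/
structure BOut (n W D c₀ σ₁ σ₂ : ℕ) (E' : Finset (ZZ n × ZZ n)) (P : Finset (E n))
    (B : E n ≃ₗᵢ[ℝ] E n) (dF d1 d2 : ℕ → ℕ) where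
  (E1 A : Finset (ZZ n × ZZ n))
  (N c₁ c₂ v₁ v₂ : ℕ)
  /-- the data of `Z⁺` over the good edges -/
  Z : ZData ℝ n E' E1 A (wh (Crd n) (Pt n) W) N c₀ c₁ c₂ σ₁ σ₂
  /-- the side of `s` (`r` moves) -/
  S₁ : Side n A W D σ₁ v₂
  /-- the side of `r` (`s` moves) -/
  S₂ : Side n (swp A) W D σ₂ v₁
  sub : A ⊆ E'
  card : E'.card ≤ 2 * A.card
  hN : N ≤ D * W
  hc₀ : c₀ + (σ₁ + σ₂) = 2 * n + 1
  hc₁ : c₁ + v₁ = 2 * (n + 1)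
  hc₂ : c₂ + v₂ = 2 * (n + 1)
  hfd : ∀ i, (Z.f i).totalDegree ≤ dF i
  hhd : ∀ i, Z.h i ∈ Vw ℝ (wh (Crd n) (Pt n) W) (D * W)
  hhd' : ∀ i, Z.h' i ∈ Vw ℝ (wh (Crd n) (Pt n) W) (D * W)
  hd1 : ∀ s i, (S₁.f s i).totalDegree ≤ d1 i
  hd2 : ∀ r i, (S₂.f r i).totalDegree ≤ d2 i
  hKc1 : ∀ e ∈ A, ∀ i, thS e.1 (Z.F i) ∈ germ (hpt e.1 e.2) (S₁.F e.1)
  hKc2 : ∀ e ∈ A, ∀ i, thR e.2 (Z.F i) ∈ germ (hpt e.2 e.1) (S₂.F e.2)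
  hK1 : ∀ e ∈ A, ∀ G : MvPolynomial (ZI n) ℝ, rename (fun x => Sum.inr (Sum.inr x)) G ∈
    germ (edgePt e.1 e.2) Z.F ↔ G ∈ S₁.Pr e
  hK2 : ∀ e ∈ A, ∀ G : MvPolynomial (ZI n) ℝ, rename (fun x => Sum.inr (Sum.inl x)) G ∈
    germ (edgePt e.1 e.2) Z.F ↔ G ∈ S₂.Pr e.swap
  hst₁ : ∀ e ∈ A, StabP P B (S₁.Pr e)
  hst₂ : ∀ e ∈ A, StabP P B (S₂.Pr e.swap)
  side₁ : ∀ e ∈ A, EdgeS S₁ e
  side₂ : ∀ e ∈ A, EdgeS S₂ e.swap
  hperp : ∀ e ∈ A, ∀ a ∈ S₂.V e.swap, ∀ b ∈ S₁.V e, Bf a b = 0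
  hw₁ : ∀ e ∈ A, e.1 - e.2 ∈ S₂.V e.swap → S₁.V e ≤ S₂.V e.swap
  hw₂ : ∀ e ∈ A, e.1 - e.2 ∈ S₁.V e → S₂.V e.swap ≤ S₁.V e
  ste : ∀ e ∈ A, Ste S₁ e

/-- `EdgeB` at every good edge, from a vertical theorem `VertS n` (`n ≥ 3`: `H622.vertS`) -/
theorem BOut.edgeB {W D c₀ σ₁ σ₂ : ℕ} {E' : Finset (ZZ n × ZZ n)} {P : Finset (E n)}
    {B : E n ≃ₗᵢ[ℝ] E n} {dF d1 d2 : ℕ → ℕ} (O : BOut n W D c₀ σ₁ σ₂ E' P B dF d1 d2)
    (hV : H163.VertS n) {β : ℕ} (hB : Gm P B) (hE : E' ⊆ Ez P B β) :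
    ∀ e ∈ O.A, EdgeB O.S₁ O.S₂ e := by
  intro e he
  have hv := hV E' O.E1 O.A W D O.N c₀ O.c₁ O.c₂ σ₁ σ₂ O.v₁ O.v₂ O.Z O.S₁ O.S₂ P B β hB
    e he (hE (O.sub he)) O.hc₀ O.hc₁ O.hc₂ (O.hKc1 e he) (O.hKc2 e he) (O.hK1 e he) (O.hK2 e he)
    (O.hst₁ e he) (O.hst₂ e he) (O.hw₁ e he) (O.hw₂ e he)
  exact
    { side₁ := O.side₁ e he
      side₂ := O.side₂ e he
      hperp := O.hperp e he
      hw₁ := O.hw₁ e he
      hw₂ := O.hw₂ e he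
      ste := O.ste e he
      vertN := hv.vertN
      vertA₁ := hv.vertA₁
      vertA₂ := hv.vertA₂ }

/-- **section B over one `ZData`** (base scale `W`, hat levels `W * D`) -/
theorem secB_core {W D θ : ℕ} (hW : 1 ≤ W) (hD : 1 ≤ D)
    {E' E1 E2 : Finset (ZZ n × ZZ n)} {c₀ c₁ c₂ σ₁ σ₂ v₁ v₂ : ℕ}
    (Z : ZData ℝ n E' E1 E2 (wh (Crd n) (Pt n) W) (W * D) c₀ c₁ c₂ σ₁ σ₂)
    (dF d1 d2 : ℕ → ℕ) (hfd : ∀ i, (Z.f i).totalDegree ≤ dF i)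
    (hc₀ : c₀ + (σ₁ + σ₂) = 2 * n + 1) (hσ₁ : σ₁ ≤ n) (hσ₁1 : 1 ≤ σ₁) (hσ₂ : σ₂ ≤ n)
    (hσ₂1 : 1 ≤ σ₂) (hc₁ : c₁ + v₁ = 2 * (n + 1)) (hc₂ : c₂ + v₂ = 2 * (n + 1))
    (hE2 : 4 * (E' \ E2).card ≤ E'.card)
    -- the leaf systems
    (f₁ : ZZ n → Fin (n - σ₁) → MvPolynomial (Fin n) ℝ)
    (hf₁d : ∀ s i, (f₁ s i).totalDegree ≤ d1 i) (hf₁W : ∀ s i, (f₁ s i).totalDegree ≤ W)
    (hf₁0 : ∀ e ∈ E', ∀ i, eval (mu e.1 e.2) (f₁ e.1 i) = 0)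
    (hf₁i : ∀ e ∈ E', LinearIndependent ℝ (fun i => grad (mu e.1 e.2) (f₁ e.1 i)))
    {Y₁ : Finset (ZZ n × ZZ n)} (hY₁c : 64 * Y₁.card ≤ E'.card)
    (hg₁ : ∀ e ∈ E', e ∉ Y₁ → ∀ G : MvPolynomial (Fin n) ℝ, G.totalDegree ≤ W * D →
      (∀ e' ∈ E', e'.1 = e.1 → eval (mu e'.1 e'.2) G = 0) → G ∈ germ (mu e.1 e.2) (f₁ e.1))
    (f₂ : ZZ n → Fin (n - σ₂) → MvPolynomial (Fin n) ℝ)
    (hf₂d : ∀ s i, (f₂ s i).totalDegree ≤ d2 i) (hf₂W : ∀ s i, (f₂ s i).totalDegree ≤ W)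
    (hf₂0 : ∀ e ∈ E', ∀ i, eval (mu e.1 e.2) (f₂ e.2 i) = 0)
    (hf₂i : ∀ e ∈ E', LinearIndependent ℝ (fun i => grad (mu e.1 e.2) (f₂ e.2 i)))
    {Y₂ : Finset (ZZ n × ZZ n)} (hY₂c : 64 * Y₂.card ≤ E'.card)
    (hg₂ : ∀ e ∈ E', e ∉ Y₂ → ∀ G : MvPolynomial (Fin n) ℝ, G.totalDegree ≤ W * D →
      (∀ e' ∈ E', e'.2 = e.2 → eval (mu e'.1 e'.2) G = 0) → G ∈ germ (mu e.1 e.2) (f₂ e.2))
    -- the point set
    {P : Finset (E n)} {B : E n ≃ₗᵢ[ℝ] E n} (hB : Gm P B) (hE'E : E' ⊆ Ez P B θ)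
    -- [G*]
    (hG₁ : ∀ Bd ⊆ E2, (∀ e ∈ Bd, ∃ φ ∈ Vw ℝ (wh (Crd n) (Pt n) W) (2 * W),
      (∀ e' ∈ Bd, germ (edgePt e'.1 e'.2) Z.F = germ (edgePt e.1 e.2) Z.F →
        eval (xH1 e') φ = 0) ∧
      rename (H930.j1 n) φ ∉ germ (edgePt e.1 e.2) Z.F) → 64 * Bd.card ≤ E'.card)
    (hG₂ : ∀ Bd ⊆ E2, (∀ e ∈ Bd, ∃ φ ∈ Vw ℝ (wh (Crd n) (Pt n) W) (2 * W),
      (∀ e' ∈ Bd, germ (edgePt e'.1 e'.2) Z.F = germ (edgePt e.1 e.2) Z.F →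
        eval (xH2 e') φ = 0) ∧
      rename (H930.j2 n) φ ∉ germ (edgePt e.1 e.2) Z.F) → 64 * Bd.card ≤ E'.card) :
    ∃ O : BOut n W D c₀ σ₁ σ₂ E' P B dF d1 d2, True := by
  classical
  have hN : W * D ≤ D * W := le_of_eq (mul_comm _ _)
  have hcc₁ : c₁ = 2 * (n + 1) - v₁ := by omega
  have hcc₂ : c₂ = 2 * (n + 1) - v₂ := by omega
  have hv₁ : v₁ ≤ 2 * (n + 1) := by omega
  have hv₂ : v₂ ≤ 2 * (n + 1) := by omega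
  -- the good edges before [G*]
  set E3 := E2 \ (Y₁ ∪ Y₂) with hE3def
  have hE3 : E3 ⊆ E2 := Finset.sdiff_subset
  have hE3' : ∀ e ∈ E3, e ∈ E' ∧ e ∉ Y₁ ∧ e ∉ Y₂ := by
    intro e he
    have h1 := Finset.mem_sdiff.1 he
    have h2 := h1.2
    simp only [Finset.mem_union, not_or] at h2
    exact ⟨Z.mem0 h1.1, h2.1, h2.2⟩
  -- leaf data
  let L₁ : LeafData E' E3 W (W * D) σ₁ :=
    { f := f₁
      deg := hf₁W
      zero := fun e he => hf₁0 e (hE3' e he).1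
      ind := fun e he => hf₁i e (hE3' e he).1
      good := fun e he G hG h => hg₁ e (hE3' e he).1 (hE3' e he).2.1 G hG h }
  let L₂ : LeafData (swp E') (swp E3) W (W * D) σ₂ :=
    { f := f₂
      deg := hf₂W
      zero := fun e he i => by
        have h1 := hf₂0 e.swap (hE3' _ (mem_swp.1 he)).1 i
        rw [H686.mu_comm] at h1
        exact h1
      ind := fun e he => by
        have h1 := hf₂i e.swap (hE3' _ (mem_swp.1 he)).1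
        rw [H686.mu_comm] at h1
        exact h1
      good := fun e he G hG h => by
        have h1 := hg₂ e.swap (hE3' _ (mem_swp.1 he)).1 (hE3' _ (mem_swp.1 he)).2.2 G hG
          (fun e' he' h2 => by
            have h3 := h e'.swap (mem_swp.2 (by rwa [Prod.swap_swap])) h2
            rw [H686.mu_comm] at h3
            exact h3)
        rw [H686.mu_comm] at h1
        exact h1 }
  -- `Z` over the good edges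
  let Z3 : ZData ℝ n E' E1 E3 (H94.wh W) (W * D) c₀ c₁ c₂ σ₁
    σ₂ := restrictZ Z hE3
  have hZ3F : Z3.F = Z.F := rfl
  let S₁ : Side n E3 W D σ₁ v₂ :=
    side₁ Z3 hcc₂ L₁ (Finset.Subset.refl _) hW hD hN hσ₁ hσ₁1 hv₂
  let S₂ : Side n (swp E3) W D σ₂ v₁ :=
    side₂ Z3 hcc₁ L₂ (Finset.Subset.refl _) hW hD hN hσ₂ hσ₂1 hv₁
  have hK : ∀ e ∈ E3, (∀ G : MvPolynomial (ZI n) ℝ, rename (fun x => Sum.inr (Sum.inr x)) G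
      ∈ germ (edgePt e.1 e.2) Z.F ↔ G ∈ S₁.Pr e) ∧
      (∀ G : MvPolynomial (ZI n) ℝ, rename (fun x => Sum.inr (Sum.inl x)) G
      ∈ germ (edgePt e.1 e.2) Z.F ↔ G ∈ S₂.Pr e.swap) := fun e he =>
    H192.kp_z Z3 hcc₂ hcc₁ L₁ L₂ (Finset.Subset.refl _) hW hD hN hσ₁ hσ₁1 hσ₂ hσ₂1 hv₁ hv₂ hc₀ he
  have hKc : ∀ e ∈ E3, (∀ i, thS e.1 (Z.F i) ∈ germ (hpt e.1 e.2) (S₁.F e.1)) ∧
      (∀ i, thR e.2 (Z.F i) ∈ germ (hpt e.2 e.1) (S₂.F e.2)) := fun e he =>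
    H192.kp_z_core Z3 hcc₂ hcc₁ L₁ L₂ (Finset.Subset.refl _) hW hD hN hσ₁ hσ₁1 hσ₂ hσ₂1 hv₁ hv₂ he
  have hK1 : ∀ e ∈ E3, ∀ G : MvPolynomial (ZI n) ℝ, rename (fun x => Sum.inr (Sum.inr x)) G
      ∈ germ (edgePt e.1 e.2) Z.F ↔ G ∈ S₁.Pr e := fun e he => (hK e he).1
  have hK2 : ∀ e ∈ E3, ∀ G : MvPolynomial (ZI n) ℝ, rename (fun x => Sum.inr (Sum.inl x)) G
      ∈ germ (edgePt e.1 e.2) Z.F ↔ G ∈ S₂.Pr e.swap := fun e he => (hK e he).2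
  -- stability
  have hst₂ : ∀ e ∈ E3, StabP P B (S₂.Pr e.swap) := fun e he D' h hh => by
    refine (hK2 e he _).1 ?_
    refine H455.edge_stab_s Z (W := W) (fun y => rfl) (hE3 he) B (fun e' he' => ?_)
      (Pr := (germ (edgePt e.1 e.2) Z.F).comap (rename (R := ℝ) (H441.js n)))
      (fun G => Iff.rfl) D' h ((hK2 e he _).2 hh)
    obtain ⟨s, r, hs, -, ks, -⟩ := H441.Ez_pts (hE'E (Z.sub he'))
    exact ⟨s, hs, ks⟩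
  have hst₁ : ∀ e ∈ E3, StabP P B (S₁.Pr e) := fun e he D' h hh => by
    refine (hK1 e he _).1 ?_
    refine H455.edge_stab_r Z (W := W) (fun y => rfl) (hE3 he) B (fun e' he' => ?_)
      (Pr := (germ (edgePt e.1 e.2) Z.F).comap (rename (R := ℝ) (H441.jr n)))
      (fun G => Iff.rfl) D' h ((hK1 e he _).2 hh)
    obtain ⟨s, r, -, hr, -, kr⟩ := H441.Ez_pts (hE'E (Z.sub he'))
    exact ⟨r, hr, kr⟩
  -- the [G*] sets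
  set B₁ := E3.filter fun e => e.1 - e.2 ∈ S₁.V e ∧ ¬ S₂.V e.swap ≤ S₁.V e with hB₁def
  set B₂ := E3.filter fun e => e.1 - e.2 ∈ S₂.V e.swap ∧ ¬ S₁.V e ≤ S₂.V e.swap with hB₂def
  set B₃ := E3.filter fun e => ¬ Ste S₁ e with hB₃def
  have hB₁ : 64 * B₁.card ≤ E'.card := by
    refine hG₁ B₁ ((Finset.filter_subset _ _).trans hE3) fun e he => ?_
    obtain ⟨h1, h2, h3⟩ := Finset.mem_filter.1 he
    obtain ⟨φ, g1, g2, g3⟩ := H83.bd_hw₂ S₁ S₂ Z.F hK1 hK2 e h1 h2 h3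
    refine ⟨φ, g1, fun e' he' h => ?_, g3⟩
    obtain ⟨k1, k2, k3⟩ := Finset.mem_filter.1 he'
    exact g2 e' k1 k2 h
  have hB₂ : 64 * B₂.card ≤ E'.card := by
    refine hG₂ B₂ ((Finset.filter_subset _ _).trans hE3) fun e he => ?_
    obtain ⟨h1, h2, h3⟩ := Finset.mem_filter.1 he
    obtain ⟨φ, g1, g2, g3⟩ := H83.bd_hw₁ S₁ S₂ Z.F hK1 hK2 e h1 h2 h3
    refine ⟨φ, g1, fun e' he' h => ?_, g3⟩
    obtain ⟨k1, k2, k3⟩ := Finset.mem_filter.1 he'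
    have h4 := Z.adj e' (hE3' e' k1).1
    rw [xH2_eq h4.1 h4.2]
    exact g2 e' k1 k2 h
  have hB₃ : 64 * B₃.card ≤ E'.card := by
    refine hG₁ B₃ ((Finset.filter_subset _ _).trans hE3) fun e he => ?_
    obtain ⟨h1, h2⟩ := Finset.mem_filter.1 he
    obtain ⟨φ, g1, g2, g3⟩ := H83.bd_ste S₁ S₂ Z.F hK1 hK2
      (fun e he G hG => u_mem Z S₁ e (hKc e he).1 G hG) e h1 h2
    refine ⟨φ, g1, fun e' he' h => ?_, g3⟩
    obtain ⟨k1, k2⟩ := Finset.mem_filter.1 he'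
    exact g2 e' k1 k2 h
  -- the final set
  set Eg := E3 \ (B₁ ∪ (B₂ ∪ B₃)) with hEgdef
  have hEg3 : Eg ⊆ E3 := Finset.sdiff_subset
  have hEg2 : Eg ⊆ E2 := hEg3.trans hE3
  have hEgE : Eg ⊆ E' := fun e he => (hE3' e (hEg3 he)).1
  have hEg' : ∀ e ∈ Eg, e ∈ E3 ∧ e ∉ B₁ ∧ e ∉ B₂ ∧ e ∉ B₃ := by
    intro e he
    have h1 := Finset.mem_sdiff.1 he
    have h2 := h1.2
    simp only [Finset.mem_union, not_or] at h2
    exact ⟨h1.1, h2.1, h2.2.1, h2.2.2⟩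
  have hcardEg : E'.card ≤ 2 * Eg.card := by
    refine card_good (E2 := E2) (Y₁ := Y₁) (Y₂ := Y₂) (Y₃ := ∅) (Y₄ := ∅) (B₁ := B₁) (B₂ := B₂)
      (B₃ := B₃) hE2 hY₁c hY₂c (by simp) (by simp) hB₁ hB₂ hB₃ ?_
    intro e h0 h1 h2 _ _ h5 h6 h7
    rw [hEgdef, Finset.mem_sdiff, hE3def, Finset.mem_sdiff]
    simp only [Finset.mem_union, not_or]
    exact ⟨⟨h0, h1, h2⟩, h5, h6, h7⟩
  have hd1W : ∀ i : Fin c₁, Z.h i ∈ Vw ℝ (wh (Crd n) (Pt n) W) (D * W) := fun i =>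
    Vw_mono _ hN (Z.h_mem i)
  have hd2W : ∀ i : Fin c₂, Z.h' i ∈ Vw ℝ (wh (Crd n) (Pt n) W) (D * W) := fun i =>
    Vw_mono _ hN (Z.h'_mem i)
  refine ⟨{
    E1 := E1
    A := Eg
    N := W * D
    c₁ := c₁
    c₂ := c₂
    v₁ := v₁
    v₂ := v₂
    Z := H82.zrestrict Z hEg2
    S₁ := H83.resS S₁ hEg3
    S₂ := H83.resS S₂ (H83.swp_mono hEg3)
    sub := hEgE
    card := hcardEg
    hN := hN
    hc₀ := hc₀
    hc₁ := hc₁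
    hc₂ := hc₂
    hfd := hfd
    hhd := hd1W
    hhd' := hd2W
    hd1 := hf₁d
    hd2 := hf₂d
    hKc1 := fun e he => (hKc e (hEg3 he)).1
    hKc2 := fun e he => (hKc e (hEg3 he)).2
    hK1 := fun e he => hK1 e (hEg3 he)
    hK2 := fun e he => hK2 e (hEg3 he)
    hst₁ := fun e he => hst₁ e (hEg3 he)
    hst₂ := fun e he => hst₂ e (hEg3 he)
    side₁ := fun e he => H83.edgeS_res hEg3
      (H588.edgeS_Ez hB S₁ (hEg3 he) (hE'E (hEgE he)) (hst₁ e (hEg3 he)))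
    side₂ := fun e he => H83.edgeS_res _
      (H588.edgeS_Ez_swap hB S₂ (hEg3 he) (hE'E (hEgE he)) (hst₂ e (hEg3 he)))
    hperp := fun e he => (H981.prod_side Z (hE3 (hEg3 he)) S₁ S₂ (hK1 e (hEg3 he))
      (hK2 e (hEg3 he))).1
    hw₁ := fun e he h => by
      by_contra hc
      exact (hEg' e he).2.2.1 (Finset.mem_filter.2 ⟨(hEg' e he).1, h, hc⟩)
    hw₂ := fun e he h => by
      by_contra hc
      exact (hEg' e he).2.1 (Finset.mem_filter.2 ⟨(hEg' e he).1, h, hc⟩)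
    ste := fun e he => by
      have h1 : Ste S₁ e := by
        by_contra hc
        exact (hEg' e he).2.2.2 (Finset.mem_filter.2 ⟨(hEg' e he).1, hc⟩)
      exact h1 }, trivial⟩

end Vale.Agent.P054.T3.H182
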